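import Mathlib

open MeasureTheory ProbabilityTheory

namespace Vale.Agent.P367.Gap

lemma gauss_tilt (a : ℝ) : gaussianReal (-a) 1
    = (gaussianReal 0 1).withDensity (fun x => ENNReal.ofReal (Real.exp (-(a * x) - a ^ 2 / 2))) := by
  rw [gaussianReal_of_var_ne_zero _ one_ne_zero, gaussianReal_of_var_ne_zero _ one_ne_zero,
    ← withDensity_mul _ (measurable_gaussianPDF 0 1) (by fun_prop)]
  congr 1
  funext x
  simp only [Pi.mul_apply, gaussianPDF_def]
  rw [← ENNReal.ofReal_mul (gaussianPDFReal_nonneg _ _ _)]
  congr 1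
  simp only [gaussianPDFReal_def]
  have e : Real.exp (-(x - -a) ^ 2 / (2 * ((1 : NNReal) : ℝ)))
      = Real.exp (-(x - 0) ^ 2 / (2 * ((1 : NNReal) : ℝ))) * Real.exp (-(a * x) - a ^ 2 / 2) := by
    rw [← Real.exp_add]
    congr 1
    push_cast
    ring
  rw [e]
  ring

lemma integrable_exp_affine (a b : ℝ) :
    Integrable (fun x => Real.exp (a * x + b)) (gaussianReal 0 1) := by
  have h : Integrable (fun x => Real.exp (a * x)) (gaussianReal 0 1) :=
    integrable_exp_mul_gaussianReal a
  have := h.mul_const (Real.exp b)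
  refine this.congr (Filter.Eventually.of_forall fun x => ?_)
  simp only [← Real.exp_add]

lemma integral_exp_affine (a : ℝ) :
    ∫ x, Real.exp (a * x) ∂(gaussianReal 0 1) = Real.exp (a ^ 2 / 2) := by
  have h := mgf_gaussianReal (p := gaussianReal 0 1) (X := id) (μ := 0) (v := 1) (by simp) a
  simp only [mgf, id] at h
  rw [h]
  congr 1
  push_cast
  ring

variable {ι : Type*} [Fintype ι]

lemma exp_linear_eq_prod (a : ι → ℝ) (J : ι → ℝ) :
    Real.exp (∑ i, a i * J i) = ∏ i, Real.exp (a i * J i) := Real.exp_sum _ _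

lemma integrable_exp_linear (a : ι → ℝ) :
    Integrable (fun J : ι → ℝ => Real.exp (∑ i, a i * J i))
      (Measure.pi fun _ : ι => gaussianReal 0 1) := by
  have h : Integrable (fun J : ι → ℝ => ∏ i, Real.exp (a i * J i))
      (Measure.pi fun _ : ι => gaussianReal 0 1) := by
    apply Integrable.fintype_prod (f := fun i x => Real.exp (a i * x))
    intro i
    exact integrable_exp_mul_gaussianReal (a i)
  simpa only [exp_linear_eq_prod] using h

lemma integral_exp_linear (a : ι → ℝ) :
    ∫ J, Real.exp (∑ i, a i * J i) ∂(Measure.pi fun _ : ι => gaussianReal 0 1)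
      = Real.exp ((∑ i, a i ^ 2) / 2) := by
  simp only [exp_linear_eq_prod]
  have h := integral_fintype_prod_eq_prod (𝕜 := ℝ) (fun (i : ι) (x : ℝ) => Real.exp (a i * x))
    (μ := fun _ => gaussianReal 0 1)
  rw [h]
  simp only [integral_exp_affine]
  rw [← Real.exp_sum, Finset.sum_div]

lemma pi_tilt (a : ι → ℝ) :
    (Measure.pi fun _ : ι => gaussianReal 0 1).map (fun J => J - a)
      = (Measure.pi fun _ : ι => gaussianReal 0 1).withDensity
        (fun J => ENNReal.ofReal (Real.exp (-(∑ i, a i * J i) - (∑ i, a i ^ 2) / 2))) := by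
  have h1 : (Measure.pi fun _ : ι => gaussianReal 0 1).map (fun J => J - a)
      = Measure.pi fun i => gaussianReal (-(a i)) 1 := by
    have e : (fun J : ι → ℝ => J - a) = fun J i => (fun x => x - a i) (J i) := by
      funext J i; rfl
    have hm : ∀ i, (gaussianReal 0 1).map (fun x => x - a i) = gaussianReal (-(a i)) 1 := by
      intro i
      rw [gaussianReal_map_sub_const]
      simp
    have : ∀ i, SigmaFinite ((gaussianReal 0 1).map (fun x => x - a i)) := by
      intro i
      rw [hm i]
      infer_instance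
    rw [e, Measure.pi_map_pi (μ := fun _ : ι => gaussianReal 0 1) (f := fun i x => x - a i)
      (fun i => by fun_prop)]
    congr 1
    funext i
    exact hm i
  rw [h1]
  apply Measure.pi_eq
  intro s hs
  have hbox : MeasurableSet (Set.univ.pi s) := MeasurableSet.univ_pi hs
  rw [withDensity_apply _ hbox]
  have hexp : ∀ J : ι → ℝ, Real.exp (-(∑ i, a i * J i) - (∑ i, a i ^ 2) / 2)
      = ∏ i, Real.exp (-(a i * J i) - a i ^ 2 / 2) := by
    intro J
    rw [← Real.exp_sum]
    congr 1
    rw [Finset.sum_sub_distrib, Finset.sum_neg_distrib, Finset.sum_div]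
  have hint : Integrable (fun J : ι → ℝ => Real.exp (-(∑ i, a i * J i) - (∑ i, a i ^ 2) / 2))
      (Measure.pi fun _ : ι => gaussianReal 0 1) := by
    simp only [hexp]
    apply Integrable.fintype_prod (f := fun i x => Real.exp (-(a i * x) - a i ^ 2 / 2))
    intro i
    have := integrable_exp_affine (-(a i)) (-(a i ^ 2 / 2))
    refine this.congr (Filter.Eventually.of_forall fun x => ?_)
    ring_nf
  rw [← ofReal_integral_eq_lintegral_ofReal hint.integrableOn
    (Filter.Eventually.of_forall fun x => (Real.exp_pos _).le)]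
  rw [← integral_indicator hbox]
  have hind : (Set.univ.pi s).indicator
        (fun J : ι → ℝ => Real.exp (-(∑ i, a i * J i) - (∑ i, a i ^ 2) / 2))
      = fun J => ∏ i, (s i).indicator (fun x => Real.exp (-(a i * x) - a i ^ 2 / 2)) (J i) := by
    funext J
    by_cases hJ : J ∈ Set.univ.pi s
    · rw [Set.indicator_of_mem hJ, hexp]
      apply Finset.prod_congr rfl
      intro i _
      rw [Set.indicator_of_mem (hJ i (Set.mem_univ i))]
    · rw [Set.indicator_of_notMem hJ]
      simp only [Set.mem_univ_pi, not_forall] at hJ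
      obtain ⟨i, hi⟩ := hJ
      symm
      apply Finset.prod_eq_zero (Finset.mem_univ i)
      rw [Set.indicator_of_notMem hi]
  rw [hind, integral_fintype_prod_eq_prod (𝕜 := ℝ)
    (fun (i : ι) (x : ℝ) => (s i).indicator (fun x => Real.exp (-(a i * x) - a i ^ 2 / 2)) x)
    (μ := fun _ => gaussianReal 0 1)]
  rw [ENNReal.ofReal_prod_of_nonneg]
  · apply Finset.prod_congr rfl
    intro i _
    rw [gauss_tilt, withDensity_apply _ (hs i), integral_indicator (hs i)]
    rw [ofReal_integral_eq_lintegral_ofReal]
    · have := integrable_exp_affine (-(a i)) (-(a i ^ 2 / 2))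
      have h2 : Integrable (fun x => Real.exp (-(a i * x) - a i ^ 2 / 2)) (gaussianReal 0 1) := by
        refine this.congr (Filter.Eventually.of_forall fun x => ?_)
        ring_nf
      exact h2.integrableOn
    · exact Filter.Eventually.of_forall fun x => (Real.exp_pos _).le
  · intro i _
    apply integral_nonneg
    intro x
    apply Set.indicator_nonneg
    intro x _
    exact (Real.exp_pos _).le

/-- Cameron-Martin: translation of a finite product of standard Gaussians. -/
lemma integral_shift (a : ι → ℝ) (f : (ι → ℝ) → ℝ) :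
    ∫ J, f (J - a) ∂(Measure.pi fun _ : ι => gaussianReal 0 1)
      = ∫ J, Real.exp (-(∑ i, a i * J i) - (∑ i, a i ^ 2) / 2) * f J
          ∂(Measure.pi fun _ : ι => gaussianReal 0 1) := by
  have hemb : MeasurableEmbedding (fun J : ι → ℝ => J - a) :=
    (MeasurableEquiv.subRight a).measurableEmbedding
  rw [← hemb.integral_map (μ := Measure.pi fun _ : ι => gaussianReal 0 1) f, pi_tilt,
    integral_withDensity_eq_integral_toReal_smul (by fun_prop)
      (Filter.Eventually.of_forall fun x => ENNReal.ofReal_lt_top)]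
  apply integral_congr_ae
  refine Filter.Eventually.of_forall fun J => ?_
  simp only [smul_eq_mul]
  rw [ENNReal.toReal_ofReal (Real.exp_pos _).le]

end Vale.Agent.P367.Gap
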