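import Vale.Agent.P367.Gap.Defs

open Filter

namespace Vale.Agent.P367.Gap

/-- The ground-state energy per spin `P_*`, the limit of `(1/n) E max h`. -/
noncomputable def Pstar : ℝ := limUnder atTop groundValue

/-- The infinite-size QAOA value `v_p(γ, β)`. -/
noncomputable def vLim (p : ℕ) (γ β : Fin p → ℝ) : ℝ :=
  limUnder atTop fun n : ℕ => qaoaValue n p γ β

/-- The optimal depth-`p` value `Q_p = sup v_p(γ, β)`. -/
noncomputable def Qsup (p : ℕ) : ℝ := ⨆ a : (Fin p → ℝ) × (Fin p → ℝ), vLim p a.1 a.2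

end Vale.Agent.P367.Gap
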