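import Vale.Agent.P367.Gap.Final

open MeasureTheory ProbabilityTheory Finset Matrix Filter Topology

namespace Vale.Agent.P367.Gap

variable {n : ℕ}

lemma two_card_pair_le (n : ℕ) : 2 * (Fintype.card (Pair n) : ℝ) ≤ n * n := by
  have h := sum_pair (n := n) (fun _ _ => (1 : ℝ))
  have h1 : (Fintype.card (Pair n) : ℝ) = ∑ a : Fin n, ∑ b : Fin n, if a < b then (1 : ℝ) else 0 := by
    rw [← h]; simp
  have h2 : ∑ a : Fin n, ∑ b : Fin n, (if a < b then (1 : ℝ) else 0)
      = ∑ a : Fin n, ∑ b : Fin n, (if b < a then (1 : ℝ) else 0) := Finset.sum_comm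
  have h3 : 2 * (Fintype.card (Pair n) : ℝ) = ∑ a : Fin n, ∑ b : Fin n,
      ((if a < b then (1 : ℝ) else 0) + (if b < a then (1 : ℝ) else 0)) := by
    rw [two_mul]
    nth_rewrite 2 [h1]
    rw [h2, h1, ← Finset.sum_add_distrib]
    apply Finset.sum_congr rfl
    intro a _
    rw [← Finset.sum_add_distrib]
  rw [h3]
  calc ∑ a : Fin n, ∑ b : Fin n, ((if a < b then (1 : ℝ) else 0) + (if b < a then (1 : ℝ) else 0))
      ≤ ∑ _a : Fin n, ∑ _b : Fin n, (1 : ℝ) := by
        apply Finset.sum_le_sum; intro a _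
        apply Finset.sum_le_sum; intro b _
        rcases lt_trichotomy a b with h | h | h
        · simp [h, h.not_gt]
        · simp [h]
        · simp [h, h.not_gt]
    _ = n * n := by simp

lemma integral_exp_energy2 (s : Conf n) :
    ∫ J : Pair n → ℝ, Real.exp (skEnergy (-J) s) ∂(gLaw (Pair n)) ≤ Real.exp (n / 4) := by
  have h1 : ∀ J : Pair n → ℝ, skEnergy (-J) s = ∑ e, (-((Real.sqrt n)⁻¹ * chi s e)) * J e := by
    intro J
    unfold skEnergy chi
    rw [Finset.mul_sum]
    apply Finset.sum_congr rfl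
    intro e _
    simp only [Pi.neg_apply]
    ring
  simp only [h1]
  rw [integral_exp_linear]
  apply Real.exp_le_exp.mpr
  have h2 : ∀ e : Pair n, (-((Real.sqrt n)⁻¹ * chi s e)) ^ 2 = (n : ℝ)⁻¹ := by
    intro e
    calc (-((Real.sqrt n)⁻¹ * chi s e)) ^ 2
        = ((Real.sqrt n)⁻¹ * (Real.sqrt n)⁻¹) * (chi s e * chi s e) := by ring
      _ = _ := by rw [inv_sqrt_mul, chi_sq, mul_one]
  simp only [h2, Finset.sum_const, Finset.card_univ, nsmul_eq_mul]
  have h3 := two_card_pair_le n
  rcases Nat.eq_zero_or_pos n with hn | hn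
  · subst hn; simp
  · have hn' : (0 : ℝ) < n := by exact_mod_cast hn
    have : (Fintype.card (Pair n) : ℝ) * (n : ℝ)⁻¹ ≤ n / 2 := by
      rw [← div_eq_mul_inv, div_le_iff₀ hn']
      linarith
    linarith

lemma integral_sup_neg_le_one (n : ℕ) :
    ∫ J : Pair n → ℝ, (⨆ s : Conf n, skEnergy (-J) s) ∂(gLaw (Pair n)) ≤ n := by
  set A : ℝ := 2 ^ n * Real.exp (n / 4) with hA
  have hA0 : 0 < A := by positivity
  have hpt : ∀ J : Pair n → ℝ, (⨆ s : Conf n, skEnergy (-J) s)
      ≤ Real.log A - 1 + A⁻¹ * ∑ s : Conf n, Real.exp (skEnergy (-J) s) := by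
    intro J
    apply ciSup_le
    intro s
    have h1 := Real.add_one_le_exp (skEnergy (-J) s - Real.log A)
    rw [Real.exp_sub, Real.exp_log hA0] at h1
    have h2 : Real.exp (skEnergy (-J) s) ≤ ∑ s : Conf n, Real.exp (skEnergy (-J) s) :=
      Finset.single_le_sum (f := fun s : Conf n => Real.exp (skEnergy (-J) s))
        (fun _ _ => (Real.exp_pos _).le) (mem_univ s)
    have h3 : Real.exp (skEnergy (-J) s) / A ≤ A⁻¹ * ∑ s : Conf n, Real.exp (skEnergy (-J) s) := by
      rw [div_eq_inv_mul]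
      exact mul_le_mul_of_nonneg_left h2 (by positivity)
    linarith
  have hi1 : Integrable (fun J : Pair n → ℝ => ⨆ s : Conf n, skEnergy (-J) s)
      (gLaw (Pair n)) := by
    apply integrable_iSup (fun (s : Conf n) (J : Pair n → ℝ) => skEnergy (-J) s)
    · intro s; exact integrable_energy_neg s
    · intro s
      have := continuous_skEnergy (n := n) s
      exact (this.comp continuous_neg).measurable
  have hi2 : Integrable (fun J : Pair n → ℝ => ∑ s : Conf n, Real.exp (skEnergy (-J) s))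
      (gLaw (Pair n)) := integrable_finsetSum _ fun s _ => integrable_exp_energy s
  calc ∫ J : Pair n → ℝ, (⨆ s : Conf n, skEnergy (-J) s) ∂(gLaw (Pair n))
      ≤ ∫ J : Pair n → ℝ, (Real.log A - 1 + A⁻¹ * ∑ s : Conf n, Real.exp (skEnergy (-J) s))
          ∂(gLaw (Pair n)) := by
        apply integral_mono hi1
        · exact (integrable_const _).add (hi2.const_mul _)
        · exact hpt
    _ = Real.log A - 1 + A⁻¹ * ∑ s : Conf n,
          ∫ J : Pair n → ℝ, Real.exp (skEnergy (-J) s) ∂(gLaw (Pair n)) := by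
        rw [integral_add (integrable_const _) (hi2.const_mul _), integral_const_mul,
          integral_finsetSum _ fun s _ => integrable_exp_energy s]
        simp
    _ ≤ Real.log A - 1 + A⁻¹ * ∑ s : Conf n, Real.exp (n / 4) := by
        have := Finset.sum_le_sum (s := (univ : Finset (Conf n)))
          fun s _ => integral_exp_energy2 s
        have := mul_le_mul_of_nonneg_left this (show 0 ≤ A⁻¹ by positivity)
        linarith
    _ = Real.log A := by
        rw [Finset.sum_const, Finset.card_univ, nsmul_eq_mul, Fintype.card_fun,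
          Fintype.card_bool, Fintype.card_fin]
        push_cast
        rw [← hA, inv_mul_cancel₀ hA0.ne']
        ring
    _ ≤ n := by
        rw [hA, Real.log_mul (by positivity) (Real.exp_pos _).ne', Real.log_exp, Real.log_pow]
        have := Real.log_two_lt_d9
        have hn0 : (0 : ℝ) ≤ n := Nat.cast_nonneg n
        nlinarith

lemma gLaw_neg (ι : Type*) [Fintype ι] (f : (ι → ℝ) → ℝ) :
    ∫ J, f (-J) ∂(gLaw ι) = ∫ J, f J ∂(gLaw ι) := by
  have hmap : (gLaw ι).map (fun J => -J) = gLaw ι := by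
    have e : (fun J : ι → ℝ => -J) = fun J i => (fun x => -x) (J i) := by
      funext J i; rfl
    have hm : (gaussianReal 0 1).map (fun x => -x) = gaussianReal 0 1 := by
      rw [gaussianReal_map_neg]; simp
    have : ∀ _ : ι, SigmaFinite ((gaussianReal 0 1).map (fun x => -x)) := by
      intro _; rw [hm]; infer_instance
    rw [e, Measure.pi_map_pi (μ := fun _ : ι => gaussianReal 0 1) (f := fun _ x => -x)
      (fun i => by fun_prop)]
    rw [hm]
  have hemb : MeasurableEmbedding (fun J : ι → ℝ => -J) :=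
    (MeasurableEquiv.neg (ι → ℝ)).measurableEmbedding
  rw [← hemb.integral_map (μ := gLaw ι) f, hmap]

lemma integral_sup_le_one (n : ℕ) :
    ∫ J : Pair n → ℝ, (⨆ s : Conf n, skEnergy J s) ∂(gLaw (Pair n)) ≤ n := by
  rw [← gLaw_neg (Pair n) (fun J => ⨆ s : Conf n, skEnergy J s)]
  exact integral_sup_neg_le_one n

/-- Pointwise bound of the total local field by the extreme energies. -/
lemma sum_abs_field_le (J : Pair n → ℝ) (s : Conf n) :
    ∑ i, |tt (uvec i) s J| ≤ 4 * (⨆ s : Conf n, skEnergy J s)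
      + 2 * ⨆ s : Conf n, skEnergy (-J) s := by
  set K := ext J with hK
  set x : Fin n → ℝ := fun i => spin (s i) with hx
  set y : Fin n → ℝ := fun i => if 0 ≤ fld K x i then 1 else -1 with hy
  have h1 : ∑ i, |tt (uvec i) s J| = ∑ i, y i * fld K x i := by
    apply Finset.sum_congr rfl
    intro i _
    rw [tt_eq]
    unfold afld
    rw [abs_mul, abs_spin, one_mul]
    simp only [hy]
    split_ifs with h
    · rw [abs_of_nonneg h, one_mul]
    · rw [abs_of_neg (not_le.mp h)]; ring
  have hadd := Hq_add K x y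
  have hscale : Hq K (fun i => x i + y i) = 4 * Hq K (fun i => (x i + y i) / 2) := by
    rw [Hq_eq, Hq_eq]
    have : ∑ i, ∑ j, Ksym K i j * (x i + y i) * (x j + y j)
        = 4 * ∑ i, ∑ j, Ksym K i j * ((x i + y i) / 2) * ((x j + y j) / 2) := by
      rw [mul_sum]
      refine sum_congr rfl fun i _ => ?_
      rw [mul_sum]
      refine sum_congr rfl fun j _ => ?_
      ring
    rw [this]; ring
  have hx1 : ∀ i, |x i| ≤ 1 := fun i => (abs_spin _).le
  have hy1 : ∀ i, |y i| ≤ 1 := by
    intro i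
    simp only [hy]
    split_ifs <;> simp
  have hz1 : ∀ i, |(x i + y i) / 2| ≤ 1 := by
    intro i
    rw [abs_div, abs_two, div_le_one (by norm_num)]
    have := abs_add_le (x i) (y i)
    have := hx1 i
    have := hy1 i
    linarith
  obtain ⟨τ, hτ⟩ := exists_vertex K _ hz1
  obtain ⟨τ1, hτ1⟩ := exists_vertex (fun e => - K e) x hx1
  obtain ⟨τ2, hτ2⟩ := exists_vertex (fun e => - K e) y hy1
  rw [Hq_neg] at hτ1 hτ2
  have b1 : Hq K (fun i => spin (τ i)) ≤ ⨆ s : Conf n, skEnergy J s := by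
    have := le_ciSup (f := fun τ : Conf n => skEnergy J τ) (Set.finite_range _).bddAbove τ
    rwa [← skEq_ext] at this
  have b2 : ∀ τ : Conf n, Hq (fun e => - K e) (fun i => spin (τ i))
      ≤ ⨆ s : Conf n, skEnergy (-J) s := by
    intro τ
    have := le_ciSup (f := fun τ : Conf n => skEnergy (-J) τ) (Set.finite_range _).bddAbove τ
    rw [← skEq_ext, ← ext_neg] at this
    exact this
  have b21 := b2 τ1
  have b22 := b2 τ2
  rw [h1]
  have h3 : ∑ i, y i * fld K x i = Hq K (fun i => x i + y i) - Hq K x - Hq K y := by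
    rw [hadd]; ring
  rw [h3, hscale]
  linarith

/-- Averaged first moment of the aligned fields. -/
theorem first_moment (p : ℕ) (γ β : Fin p → ℝ)
    (hmeas : ∀ s, Measurable fun J : Pair n → ℝ => qaoaState J p γ β s)
    (hnorm : ∀ J : Pair n → ℝ, ∑ s, ‖qaoaState J p γ β s‖ ^ 2 = 1) :
    ∑ i : Fin n, ∫ J : Pair n → ℝ, ∑ s, ‖qaoaState J p γ β s‖ ^ 2 * |tt (uvec i) s J|
      ∂(gLaw (Pair n)) ≤ 6 * n := by
  have iT : ∀ (i : Fin n) (s : Conf n), Integrable
      (fun J : Pair n → ℝ => ‖qaoaState J p γ β s‖ ^ 2 * |tt (uvec i) s J|) (gLaw (Pair n)) := by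
    intro i s
    have h1 : Integrable (fun J : Pair n → ℝ => tt (uvec i) s J) (gLaw (Pair n)) := by
      unfold tt
      apply integrable_finsetSum
      intro e _
      apply Integrable.const_mul
      exact integrable_comp_eval (μ := fun _ : Pair n => gaussianReal 0 1) (i := e)
        (f := fun x => x) ((memLp_id_gaussianReal 1).integrable le_rfl)
    refine h1.abs.mono' ?_ (Filter.Eventually.of_forall fun J => ?_)
    · apply Measurable.aestronglyMeasurable
      have h3 := measurable_tt (S := Conf n) (uvec i) s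
      exact ((hmeas s).norm.pow_const 2).mul h3.abs
    · rw [norm_mul, Real.norm_eq_abs, Real.norm_eq_abs, abs_abs, abs_of_nonneg (by positivity)]
      calc ‖qaoaState J p γ β s‖ ^ 2 * |tt (uvec i) s J| ≤ 1 * |tt (uvec i) s J| :=
            mul_le_mul_of_nonneg_right (norm_sq_le_one (hnorm J) s) (abs_nonneg _)
        _ = _ := one_mul _
  rw [← integral_finsetSum _ fun i _ => integrable_finsetSum _ fun s _ => iT i s]
  have iS1 : Integrable (fun J : Pair n → ℝ => ⨆ s : Conf n, skEnergy J s) (gLaw (Pair n)) :=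
    integrable_iSup (fun (s : Conf n) (J : Pair n → ℝ) => skEnergy J s)
      (fun s => integrable_energy s) (fun s => (continuous_skEnergy s).measurable)
  have iS2 : Integrable (fun J : Pair n → ℝ => ⨆ s : Conf n, skEnergy (-J) s)
      (gLaw (Pair n)) :=
    integrable_iSup (fun (s : Conf n) (J : Pair n → ℝ) => skEnergy (-J) s)
      (fun s => integrable_energy_neg s)
      (fun s => ((continuous_skEnergy s).comp continuous_neg).measurable)
  calc ∫ J : Pair n → ℝ, ∑ i, ∑ s, ‖qaoaState J p γ β s‖ ^ 2 * |tt (uvec i) s J|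
      ∂(gLaw (Pair n))
      ≤ ∫ J : Pair n → ℝ, (4 * (⨆ s : Conf n, skEnergy J s)
      + 2 * ⨆ s : Conf n, skEnergy (-J) s) ∂(gLaw (Pair n)) := by
        apply integral_mono
        · exact integrable_finsetSum _ fun i _ => integrable_finsetSum _ fun s _ => iT i s
        · exact (iS1.const_mul _).add (iS2.const_mul _)
        · intro J
          show ∑ i, ∑ s, ‖qaoaState J p γ β s‖ ^ 2 * |tt (uvec i) s J| ≤ _
          rw [Finset.sum_comm]
          calc ∑ s, ∑ i, ‖qaoaState J p γ β s‖ ^ 2 * |tt (uvec i) s J|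
              ≤ ∑ s, ‖qaoaState J p γ β s‖ ^ 2 * (4 * (⨆ s : Conf n, skEnergy J s)
                + 2 * ⨆ s : Conf n, skEnergy (-J) s) := by
                apply Finset.sum_le_sum
                intro s _
                rw [← Finset.mul_sum]
                exact mul_le_mul_of_nonneg_left (sum_abs_field_le J s) (by positivity)
            _ = _ := by rw [← Finset.sum_mul, hnorm J, one_mul]
    _ = 4 * ∫ J : Pair n → ℝ, (⨆ s : Conf n, skEnergy J s) ∂(gLaw (Pair n))
        + 2 * ∫ J : Pair n → ℝ, (⨆ s : Conf n, skEnergy (-J) s) ∂(gLaw (Pair n)) := by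
        rw [integral_add (iS1.const_mul _) (iS2.const_mul _), integral_const_mul,
          integral_const_mul]
    _ ≤ 6 * n := by
        have h1 := integral_sup_le_one n
        have h2 := integral_sup_neg_le_one n
        linarith

/-- Measurability of the state. -/
lemma measurable_qaoaState (p : ℕ) (γ β : Fin p → ℝ) (s : Conf n) :
    Measurable fun J : Pair n → ℝ => qaoaState J p γ β s := by
  set γ' : ℕ → ℝ := fun k => if h : k < p then γ ⟨k, h⟩ else 0 with hγ'
  set β' : ℕ → ℝ := fun k => if h : k < p then β ⟨k, h⟩ else 0 with hβ'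
  have hγe : ∀ k : Fin p, γ' k = γ k := by
    intro k; simp [hγ', k.2]
  have hβe : ∀ k : Fin p, β' k = β k := by
    intro k; simp [hβ', k.2]
  have h1 := continuous_circ (fun k => matL (mixU n (β' k))) γ' (plusH n) p
  have h2 : Continuous fun J : Pair n → ℝ =>
      (circ (fun k => matL (mixU n (β' k))) γ' (cE J) (plusH n) p) s :=
    (PiLp.continuous_apply 2 _ s).comp h1
  have h3 : (fun J : Pair n → ℝ => qaoaState J p γ β s)
      = fun J => circ (fun k => matL (mixU n (β' k))) γ' (cE J) (plusH n) p s := by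
    funext J
    rw [circ_eq_qaoa J p γ β γ' β' hγe hβe]
  rw [h3]
  exact h2.measurable

/-- Normalisation of the state. -/
lemma norm_qaoaState (J : Pair n → ℝ) (p : ℕ) (γ β : Fin p → ℝ) :
    ∑ s, ‖qaoaState J p γ β s‖ ^ 2 = 1 := by
  set γ' : ℕ → ℝ := fun k => if h : k < p then γ ⟨k, h⟩ else 0 with hγ'
  set β' : ℕ → ℝ := fun k => if h : k < p then β ⟨k, h⟩ else 0 with hβ'
  have hγe : ∀ k : Fin p, γ' k = γ k := by
    intro k; simp [hγ', k.2]
  have hβe : ∀ k : Fin p, β' k = β k := by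
    intro k; simp [hβ', k.2]
  have h0 := circ_eq_qaoa J p γ β γ' β' hγe hβe
  have h1 := norm_circ_real (fun k => matL (mixU n (β' k)))
    (fun k v => norm_matL _ (mixU_unitary _) v) γ' J (plusH n) p
  rw [norm_plusH, h0, EuclideanSpace.norm_eq] at h1
  have h3 := congrArg (fun x : ℝ => x ^ 2) h1
  simp only at h3
  rw [Real.sq_sqrt (Finset.sum_nonneg fun s _ => by positivity)] at h3
  simpa using h3

/-- **Gain from misalignment.** -/
theorem gain_of_misalign (hn0 : 0 < n) (p : ℕ) (γ β : Fin p → ℝ) (ε : ℝ) (hε0 : 0 ≤ ε)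
    (hε1 : ε ≤ 1)
    (hmis : (n : ℝ) * ε ≤ ∑ i : Fin n, ∫ J : Pair n → ℝ,
      ∑ s, ‖qaoaState J p γ β s‖ ^ 2 * max (-(tt (uvec i) s J)) 0 ∂(gLaw (Pair n))) :
    qaoaValue n p γ β ≤ groundValue n - ε ^ 2 / 4 := by
  have hnr : (0 : ℝ) < n := by exact_mod_cast hn0
  have hmeas := fun s => measurable_qaoaState (n := n) p γ β s
  have hnorm := fun J : Pair n → ℝ => norm_qaoaState J p γ β
  set ψ : (Pair n → ℝ) → Conf n → ℂ := fun J => qaoaState J p γ β with hψ
  set q : ℝ := ε / 4 with hq
  have hq0 : 0 ≤ q := by positivity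
  have hq1 : q ≤ 1 := by rw [hq]; linarith
  have hpt : ∀ J : Pair n → ℝ,
      qaoaMean J p γ β + 2 * q * ∑ i, ∑ s, ‖ψ J s‖ ^ 2 * max (-(tt (uvec i) s J)) 0
        ≤ (⨆ s : Conf n, skEnergy J s) + 4 * q ^ 2 * ⨆ s : Conf n, skEnergy (-J) s := by
    intro J
    rw [qaoaMean_eq]
    exact flip_avg J (fun s => ‖ψ J s‖ ^ 2) (fun s => by positivity) (hnorm J) q hq0 hq1
  have iE : Integrable (fun J : Pair n → ℝ => qaoaMean J p γ β) (gLaw (Pair n)) := by
    have h1 : (fun J : Pair n → ℝ => qaoaMean J p γ β)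
        = fun J => ∑ s, ‖ψ J s‖ ^ 2 * skEnergy J s := by
      funext J; exact qaoaMean_eq J p γ β
    rw [h1]
    apply integrable_finsetSum
    intro s _
    refine (integrable_energy s).abs.mono' ?_ (Filter.Eventually.of_forall fun J => ?_)
    · apply Measurable.aestronglyMeasurable
      exact ((hmeas s).norm.pow_const 2).mul (continuous_skEnergy s).measurable
    · rw [norm_mul, Real.norm_eq_abs, Real.norm_eq_abs, abs_of_nonneg (by positivity)]
      calc ‖ψ J s‖ ^ 2 * |skEnergy J s| ≤ 1 * |skEnergy J s| :=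
            mul_le_mul_of_nonneg_right (norm_sq_le_one (hnorm J) s) (abs_nonneg _)
        _ = _ := one_mul _
  have iM : ∀ i : Fin n, Integrable
      (fun J : Pair n → ℝ => ∑ s, ‖ψ J s‖ ^ 2 * max (-(tt (uvec i) s J)) 0) (gLaw (Pair n)) :=
    fun i => integrable_finsetSum _ fun s _ => integrable_mis ψ (uvec i) hmeas hnorm s
  have iS1 : Integrable (fun J : Pair n → ℝ => ⨆ s : Conf n, skEnergy J s) (gLaw (Pair n)) :=
    integrable_iSup (fun (s : Conf n) (J : Pair n → ℝ) => skEnergy J s)
      (fun s => integrable_energy s) (fun s => (continuous_skEnergy s).measurable)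
  have iS2 : Integrable (fun J : Pair n → ℝ => ⨆ s : Conf n, skEnergy (-J) s)
      (gLaw (Pair n)) :=
    integrable_iSup (fun (s : Conf n) (J : Pair n → ℝ) => skEnergy (-J) s)
      (fun s => integrable_energy_neg s)
      (fun s => ((continuous_skEnergy s).comp continuous_neg).measurable)
  have hint : ∫ J, (qaoaMean J p γ β
        + 2 * q * ∑ i, ∑ s, ‖ψ J s‖ ^ 2 * max (-(tt (uvec i) s J)) 0) ∂(gLaw (Pair n))
      ≤ ∫ J : Pair n → ℝ, ((⨆ s : Conf n, skEnergy J s)
        + 4 * q ^ 2 * ⨆ s : Conf n, skEnergy (-J) s) ∂(gLaw (Pair n)) := by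
    apply integral_mono
    · exact iE.add ((integrable_finsetSum _ fun i _ => iM i).const_mul _)
    · exact iS1.add (iS2.const_mul _)
    · exact hpt
  rw [integral_add iE ((integrable_finsetSum _ fun i _ => iM i).const_mul _),
    integral_add iS1 (iS2.const_mul _), integral_const_mul, integral_const_mul,
    integral_finsetSum _ fun i _ => iM i] at hint
  have hneg := integral_sup_neg_le_one n
  have hQ : (n : ℝ) * qaoaValue n p γ β = ∫ J, qaoaMean J p γ β ∂(gLaw (Pair n)) := by
    unfold qaoaValue couplingLaw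
    rw [← mul_assoc, mul_inv_cancel₀ hnr.ne', one_mul]
  have hP : (n : ℝ) * groundValue n
      = ∫ J : Pair n → ℝ, (⨆ s : Conf n, skEnergy J s) ∂(gLaw (Pair n)) := by
    unfold groundValue couplingLaw
    rw [← mul_assoc, mul_inv_cancel₀ hnr.ne', one_mul]
  rw [← hQ, ← hP] at hint
  have h1 : 2 * q * ((n : ℝ) * ε) ≤ 2 * q * ∑ i : Fin n,
      ∫ J : Pair n → ℝ, ∑ s, ‖ψ J s‖ ^ 2 * max (-(tt (uvec i) s J)) 0 ∂(gLaw (Pair n)) :=
    mul_le_mul_of_nonneg_left hmis (by positivity)
  have h2 : 4 * q ^ 2 * ∫ J : Pair n → ℝ, (⨆ s : Conf n, skEnergy (-J) s) ∂(gLaw (Pair n))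
      ≤ 4 * q ^ 2 * n := mul_le_mul_of_nonneg_left hneg (by positivity)
  have h3 : (n : ℝ) * qaoaValue n p γ β + (n : ℝ) * (ε ^ 2 / 4) ≤ (n : ℝ) * groundValue n := by
    have h4 : 2 * q * ((n : ℝ) * ε) - 4 * q ^ 2 * n = (n : ℝ) * (ε ^ 2 / 4) := by
      rw [hq]; ring
    linarith
  have h5 : (n : ℝ) * (qaoaValue n p γ β + ε ^ 2 / 4) ≤ (n : ℝ) * groundValue n := by
    rw [mul_add]; exact h3
  have h6 := le_of_mul_le_mul_left h5 hnr
  linarith

end Vale.Agent.P367.Gap
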