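import Vale.Agent.P367.Gap.Model

open MeasureTheory ProbabilityTheory Finset Matrix Filter Topology

namespace Vale.Agent.P367.Gap

variable {n : ℕ}

/-- Flip lemma with the total misalignment. -/
theorem flip_gain2 (K : Fin n × Fin n → ℝ) (σ : Conf n) (q : ℝ) (hq0 : 0 ≤ q) (hq1 : q ≤ 1) :
    skEq K σ + 2 * q * ∑ i, max (-(afld K σ i)) 0
      ≤ (⨆ τ : Conf n, skEq K τ) + 4 * q ^ 2 * ⨆ τ : Conf n, skEq (fun e => - K e) τ := by
  classical
  set S := univ.filter fun i => afld K σ i < 0 with hS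
  set x : Fin n → ℝ := fun i => spin (σ i) with hx
  have hx1 : ∀ i, |x i| = 1 := fun i => abs_spin _
  set m : Fin n → ℝ := fun i => if i ∈ S then x i else 0 with hm
  have hm1 : ∀ i, |m i| ≤ 1 := by
    intro i
    simp only [hm]
    split_ifs
    · exact (hx1 i).le
    · simp
  have hscale : Hq K (fun i => (-(2 * q)) * m i) = 4 * q ^ 2 * Hq K m := by
    rw [Hq_eq, Hq_eq]
    have : ∑ i, ∑ j, Ksym K i j * (-(2 * q) * m i) * (-(2 * q) * m j)
        = 4 * q ^ 2 * ∑ i, ∑ j, Ksym K i j * m i * m j := by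
      rw [mul_sum]
      refine sum_congr rfl fun i _ => ?_
      rw [mul_sum]
      refine sum_congr rfl fun j _ => ?_
      ring
    rw [this]; ring
  have hadd := Hq_add K x (fun i => (-(2 * q)) * m i)
  rw [hscale] at hadd
  have hlin : ∑ i, (-(2 * q)) * m i * fld K x i = 2 * q * ∑ i, max (-(afld K σ i)) 0 := by
    rw [mul_sum]
    refine sum_congr rfl fun i _ => ?_
    by_cases hi : i ∈ S
    · have h1 : afld K σ i < 0 := (mem_filter.1 hi).2
      rw [max_eq_left (by linarith)]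
      simp only [hm, hi, if_true, afld, hx]
      ring
    · have h1 : ¬ afld K σ i < 0 := fun h => hi (mem_filter.2 ⟨mem_univ i, h⟩)
      rw [max_eq_right (by linarith)]
      simp [hm, hi]
  have hcube : ∀ i, |x i + (-(2 * q)) * m i| ≤ 1 := by
    intro i
    simp only [hm]
    split_ifs
    · have : x i + -(2 * q) * x i = x i * (1 - 2 * q) := by ring
      rw [this, abs_mul, hx1, one_mul, abs_le]
      constructor <;> linarith
    · simp [hx1]
  obtain ⟨τ, hτ⟩ := exists_vertex K _ hcube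
  obtain ⟨τ', hτ'⟩ := exists_vertex (fun e => - K e) m hm1
  have hM : Hq K (fun i => spin (τ i)) ≤ ⨆ τ : Conf n, skEq K τ :=
    le_ciSup (f := fun τ : Conf n => skEq K τ) (Set.finite_range _).bddAbove τ
  have hM' : Hq (fun e => - K e) (fun i => spin (τ' i)) ≤ ⨆ τ : Conf n, skEq (fun e => - K e) τ :=
    le_ciSup (f := fun τ : Conf n => skEq (fun e => - K e) τ) (Set.finite_range _).bddAbove τ'
  rw [Hq_neg] at hτ'
  have h5 : - Hq K m ≤ ⨆ τ : Conf n, skEq (fun e => - K e) τ := hτ'.trans hM'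
  have h6 : -(4 * q ^ 2 * Hq K m) ≤ 4 * q ^ 2 * ⨆ τ : Conf n, skEq (fun e => - K e) τ := by
    have := mul_le_mul_of_nonneg_left h5 (show (0 : ℝ) ≤ 4 * q ^ 2 by positivity)
    linarith
  have h7 : skEq K σ = Hq K x := rfl
  have h8 := hτ.trans hM
  rw [hadd] at h8
  rw [h7, ← hlin]
  linarith

lemma ext_neg (J : Pair n → ℝ) : (fun e => - ext J e) = ext (-J) := by
  funext e
  unfold ext
  split_ifs <;> simp

/-- The averaged form of the flip lemma, in terms of the pair couplings. -/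
lemma flip_avg (J : Pair n → ℝ) (w : Conf n → ℝ) (hw : ∀ s, 0 ≤ w s) (hw1 : ∑ s, w s = 1)
    (q : ℝ) (hq0 : 0 ≤ q) (hq1 : q ≤ 1) :
    ∑ s, w s * skEnergy J s + 2 * q * ∑ i, ∑ s, w s * max (-(tt (uvec i) s J)) 0
      ≤ (⨆ s : Conf n, skEnergy J s) + 4 * q ^ 2 * ⨆ s : Conf n, skEnergy (-J) s := by
  have h1 : ∀ s, w s * (skEnergy J s + 2 * q * ∑ i, max (-(tt (uvec i) s J)) 0)
      ≤ w s * ((⨆ s : Conf n, skEnergy J s) + 4 * q ^ 2 * ⨆ s : Conf n, skEnergy (-J) s) := by
    intro s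
    apply mul_le_mul_of_nonneg_left _ (hw s)
    have h := flip_gain2 (ext J) s q hq0 hq1
    rw [ext_neg] at h
    simp only [skEq_ext] at h
    simp only [tt_eq]
    exact h
  have h2 := Finset.sum_le_sum (s := univ) fun s _ => h1 s
  rw [← Finset.sum_mul, hw1, one_mul] at h2
  refine le_trans (le_of_eq ?_) h2
  simp only [mul_add, Finset.sum_add_distrib]
  congr 1
  rw [Finset.sum_comm, Finset.mul_sum]
  apply Finset.sum_congr rfl
  intro s _
  rw [Finset.mul_sum, Finset.mul_sum, Finset.mul_sum]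
  apply Finset.sum_congr rfl
  intro i _
  ring

/-- Exponential moment of the energy. -/
lemma integral_exp_energy (s : Conf n) :
    ∫ J : Pair n → ℝ, Real.exp (skEnergy (-J) s) ∂(gLaw (Pair n)) ≤ Real.exp (n / 2) := by
  have h1 : ∀ J : Pair n → ℝ, skEnergy (-J) s = ∑ e, (-((Real.sqrt n)⁻¹ * chi s e)) * J e := by
    intro J
    unfold skEnergy chi
    rw [Finset.mul_sum]
    apply Finset.sum_congr rfl
    intro e _
    simp only [Pi.neg_apply]
    ring
  simp only [h1]
  rw [integral_exp_linear]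
  apply Real.exp_le_exp.mpr
  have h2 : ∀ e : Pair n, (-((Real.sqrt n)⁻¹ * chi s e)) ^ 2 = (n : ℝ)⁻¹ := by
    intro e
    calc (-((Real.sqrt n)⁻¹ * chi s e)) ^ 2
        = ((Real.sqrt n)⁻¹ * (Real.sqrt n)⁻¹) * (chi s e * chi s e) := by ring
      _ = _ := by rw [inv_sqrt_mul, chi_sq, mul_one]
  simp only [h2, Finset.sum_const, Finset.card_univ, nsmul_eq_mul]
  have h3 : (Fintype.card (Pair n) : ℝ) ≤ n * n := by
    have : Fintype.card (Pair n) ≤ Fintype.card (Fin n × Fin n) := Fintype.card_subtype_le _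
    rw [Fintype.card_prod, Fintype.card_fin] at this
    exact_mod_cast this
  rcases Nat.eq_zero_or_pos n with hn | hn
  · subst hn; simp
  · have hn' : (0 : ℝ) < n := by exact_mod_cast hn
    have : (Fintype.card (Pair n) : ℝ) * (n : ℝ)⁻¹ ≤ n := by
      rw [← div_eq_mul_inv, div_le_iff₀ hn']
      exact h3
    linarith

lemma integrable_exp_energy (s : Conf n) :
    Integrable (fun J : Pair n → ℝ => Real.exp (skEnergy (-J) s)) (gLaw (Pair n)) := by
  have h1 : ∀ J : Pair n → ℝ, skEnergy (-J) s = ∑ e, (-((Real.sqrt n)⁻¹ * chi s e)) * J e := by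
    intro J
    unfold skEnergy chi
    rw [Finset.mul_sum]
    apply Finset.sum_congr rfl
    intro e _
    simp only [Pi.neg_apply]
    ring
  simp only [h1]
  exact integrable_exp_linear _

lemma integrable_energy (s : Conf n) :
    Integrable (fun J : Pair n → ℝ => skEnergy J s) (gLaw (Pair n)) := by
  unfold skEnergy
  apply Integrable.const_mul
  apply integrable_finsetSum
  intro e _
  apply Integrable.mul_const
  exact integrable_comp_eval (μ := fun _ : Pair n => gaussianReal 0 1) (i := e) (f := fun x => x)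
    ((memLp_id_gaussianReal 1).integrable le_rfl)

lemma integrable_energy_neg (s : Conf n) :
    Integrable (fun J : Pair n → ℝ => skEnergy (-J) s) (gLaw (Pair n)) := by
  have h : (fun J : Pair n → ℝ => skEnergy (-J) s) = fun J => - skEnergy J s := by
    funext J
    unfold skEnergy
    rw [← mul_neg, ← Finset.sum_neg_distrib]
    congr 1
    apply Finset.sum_congr rfl
    intro e _
    simp only [Pi.neg_apply]
    ring
  rw [h]
  exact (integrable_energy s).neg

lemma integrable_iSup {Ω : Type*} [MeasurableSpace Ω] {μ : Measure Ω} {S : Type*} [Fintype S]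
    [Nonempty S] (f : S → Ω → ℝ) (hf : ∀ s, Integrable (f s) μ) (hm : ∀ s, Measurable (f s)) :
    Integrable (fun ω => ⨆ s, f s ω) μ := by
  have h1 : Integrable (fun ω => ∑ s, |f s ω|) μ :=
    integrable_finsetSum _ fun s _ => (hf s).abs
  refine h1.mono' ?_ (Filter.Eventually.of_forall fun ω => ?_)
  · apply Measurable.aestronglyMeasurable
    exact Measurable.iSup hm
  · rw [Real.norm_eq_abs, abs_le]
    obtain ⟨s0⟩ := (inferInstance : Nonempty S)
    have hb : BddAbove (Set.range fun s => f s ω) := (Set.finite_range _).bddAbove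
    have h2 : ∀ s, |f s ω| ≤ ∑ s, |f s ω| := fun s =>
      Finset.single_le_sum (f := fun s => |f s ω|) (fun _ _ => abs_nonneg _) (mem_univ s)
    constructor
    · have h3 : f s0 ω ≤ ⨆ s, f s ω := le_ciSup hb s0
      have h4 := neg_abs_le (f s0 ω)
      have h5 := h2 s0
      linarith
    · exact ciSup_le fun s => (le_abs_self _).trans (h2 s)

lemma integral_sup_neg_le (hn : 0 < n) :
    ∫ J : Pair n → ℝ, (⨆ s : Conf n, skEnergy (-J) s) ∂(gLaw (Pair n)) ≤ 2 * n := by
  have hn' : (0 : ℝ) < n := by exact_mod_cast hn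
  set A : ℝ := 2 ^ n * Real.exp (n / 2) with hA
  have hA0 : 0 < A := by positivity
  have hpt : ∀ J : Pair n → ℝ, (⨆ s : Conf n, skEnergy (-J) s)
      ≤ Real.log A - 1 + A⁻¹ * ∑ s : Conf n, Real.exp (skEnergy (-J) s) := by
    intro J
    apply ciSup_le
    intro s
    have h1 := Real.add_one_le_exp (skEnergy (-J) s - Real.log A)
    rw [Real.exp_sub, Real.exp_log hA0] at h1
    have h2 : Real.exp (skEnergy (-J) s) ≤ ∑ s : Conf n, Real.exp (skEnergy (-J) s) :=
      Finset.single_le_sum (f := fun s : Conf n => Real.exp (skEnergy (-J) s))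
        (fun _ _ => (Real.exp_pos _).le) (mem_univ s)
    have h3 : Real.exp (skEnergy (-J) s) / A ≤ A⁻¹ * ∑ s : Conf n, Real.exp (skEnergy (-J) s) := by
      rw [div_eq_inv_mul]
      exact mul_le_mul_of_nonneg_left h2 (by positivity)
    linarith
  have hi1 : Integrable (fun J : Pair n → ℝ => ⨆ s : Conf n, skEnergy (-J) s)
      (gLaw (Pair n)) := by
    apply integrable_iSup (fun (s : Conf n) (J : Pair n → ℝ) => skEnergy (-J) s)
    · intro s; exact integrable_energy_neg s
    · intro s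
      have := continuous_skEnergy (n := n) s
      exact (this.comp continuous_neg).measurable
  have hi2 : Integrable (fun J : Pair n → ℝ => ∑ s : Conf n, Real.exp (skEnergy (-J) s))
      (gLaw (Pair n)) := integrable_finsetSum _ fun s _ => integrable_exp_energy s
  calc ∫ J : Pair n → ℝ, (⨆ s : Conf n, skEnergy (-J) s) ∂(gLaw (Pair n))
      ≤ ∫ J : Pair n → ℝ, (Real.log A - 1 + A⁻¹ * ∑ s : Conf n, Real.exp (skEnergy (-J) s))
          ∂(gLaw (Pair n)) := by
        apply integral_mono hi1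
        · exact (integrable_const _).add (hi2.const_mul _)
        · exact hpt
    _ = Real.log A - 1 + A⁻¹ * ∑ s : Conf n,
          ∫ J : Pair n → ℝ, Real.exp (skEnergy (-J) s) ∂(gLaw (Pair n)) := by
        rw [integral_add (integrable_const _) (hi2.const_mul _), integral_const_mul,
          integral_finsetSum _ fun s _ => integrable_exp_energy s]
        simp
    _ ≤ Real.log A - 1 + A⁻¹ * ∑ s : Conf n, Real.exp (n / 2) := by
        have := Finset.sum_le_sum (s := (univ : Finset (Conf n)))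
          fun s _ => integral_exp_energy s
        have := mul_le_mul_of_nonneg_left this (show 0 ≤ A⁻¹ by positivity)
        linarith
    _ = Real.log A := by
        rw [Finset.sum_const, Finset.card_univ, nsmul_eq_mul, Fintype.card_fun,
          Fintype.card_bool, Fintype.card_fin]
        push_cast
        rw [← hA, inv_mul_cancel₀ hA0.ne']
        ring
    _ ≤ 2 * n := by
        rw [hA, Real.log_mul (by positivity) (Real.exp_pos _).ne', Real.log_exp, Real.log_pow]
        have := Real.log_two_lt_d9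
        nlinarith

lemma qaoaMean_eq (J : Pair n → ℝ) (p : ℕ) (γ β : Fin p → ℝ) :
    qaoaMean J p γ β = ∑ s, ‖qaoaState J p γ β s‖ ^ 2 * skEnergy J s := by
  unfold qaoaMean
  have h : star (qaoaState J p γ β) ⬝ᵥ (costOp J *ᵥ qaoaState J p γ β)
      = ((∑ s, ‖qaoaState J p γ β s‖ ^ 2 * skEnergy J s : ℝ) : ℂ) := by
    rw [costOp_eq, dotProduct]
    push_cast
    apply Finset.sum_congr rfl
    intro s _
    rw [Matrix.mulVec_diagonal]
    simp only [Pi.star_apply, RCLike.star_def]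
    rw [mul_left_comm, mul_comm ((starRingEnd ℂ) _), Complex.mul_conj,
      Complex.normSq_eq_norm_sq]
    push_cast
    ring
  rw [h, Complex.ofReal_re]

/-- The constant coming from the misalignment lemma. -/
noncomputable def d0 (T : ℝ) : ℝ :=
  Real.exp (-(18 * (1200 * (1 + T)) ^ 2 + 12 * T * (1200 * (1 + T)))) / (4 * (1200 * (1 + T)))

lemma d0_pos {T : ℝ} (hT : 0 ≤ T) : 0 < d0 T := by
  unfold d0
  have := Real.exp_pos (-(18 * (1200 * (1 + T)) ^ 2 + 12 * T * (1200 * (1 + T))))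
  positivity

lemma d0_le_one {T : ℝ} (hT : 0 ≤ T) : d0 T ≤ 1 := by
  unfold d0
  rw [div_le_one (by positivity)]
  have h1 : Real.exp (-(18 * (1200 * (1 + T)) ^ 2 + 12 * T * (1200 * (1 + T)))) ≤ 1 := by
    apply Real.exp_le_one_iff.mpr
    have : 0 ≤ 18 * (1200 * (1 + T)) ^ 2 + 12 * T * (1200 * (1 + T)) := by positivity
    linarith
  linarith

lemma d0_sq_lower {T : ℝ} (hT : 0 ≤ T) :
    Real.exp (-(10 ^ 8 * (1 + T) ^ 2)) ≤ d0 T ^ 2 / 8 := by
  set a : ℝ := 1 + T with ha
  have ha1 : 1 ≤ a := by rw [ha]; linarith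
  have h1 : Real.exp (-(3 * 10 ^ 7 * a ^ 2)) ≤ d0 T := by
    unfold d0
    rw [← ha, le_div_iff₀ (by positivity)]
    have h2 : 4 * (1200 * a) ≤ Real.exp (4 * (1200 * a)) := by
      have := Real.add_one_le_exp (4 * (1200 * a))
      linarith
    calc Real.exp (-(3 * 10 ^ 7 * a ^ 2)) * (4 * (1200 * a))
        ≤ Real.exp (-(3 * 10 ^ 7 * a ^ 2)) * Real.exp (4 * (1200 * a)) :=
          mul_le_mul_of_nonneg_left h2 (Real.exp_pos _).le
      _ = Real.exp (-(3 * 10 ^ 7 * a ^ 2) + 4 * (1200 * a)) := (Real.exp_add _ _).symm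
      _ ≤ _ := by
          apply Real.exp_le_exp.mpr
          have hT' : T = a - 1 := by rw [ha]; ring
          rw [hT']
          nlinarith
  have h3 : (8 : ℝ) ≤ Real.exp 3 := by
    have h4 : Real.exp 3 = Real.exp 1 ^ 3 := by
      rw [← Real.exp_nat_mul]; norm_num
    rw [h4]
    have h5 := Real.exp_one_gt_d9
    have h6 : (2.7 : ℝ) ≤ Real.exp 1 := by linarith
    calc (8 : ℝ) ≤ 2.7 ^ 3 := by norm_num
      _ ≤ Real.exp 1 ^ 3 := pow_le_pow_left₀ (by norm_num) h6 3
  rw [le_div_iff₀ (by norm_num)]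
  calc Real.exp (-(10 ^ 8 * a ^ 2)) * 8 ≤ Real.exp (-(10 ^ 8 * a ^ 2)) * Real.exp 3 :=
        mul_le_mul_of_nonneg_left h3 (Real.exp_pos _).le
    _ = Real.exp (-(10 ^ 8 * a ^ 2) + 3) := (Real.exp_add _ _).symm
    _ ≤ Real.exp (-(3 * 10 ^ 7 * a ^ 2) + -(3 * 10 ^ 7 * a ^ 2)) := by
        apply Real.exp_le_exp.mpr
        nlinarith
    _ = Real.exp (-(3 * 10 ^ 7 * a ^ 2)) ^ 2 := by rw [Real.exp_add]; ring
    _ ≤ d0 T ^ 2 := pow_le_pow_left₀ (Real.exp_pos _).le h1 2

/-- **Main theorem**, finite size. -/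
theorem gap_finite (T : ℝ) (n : ℕ) (hn : 2 ≤ n) (p : ℕ) (γ β : Fin p → ℝ)
    (hγ : ∑ k, |γ k| ≤ T) :
    qaoaValue n p γ β ≤ groundValue n - Real.exp (-(10 ^ 8 * (1 + T) ^ 2)) := by
  have hT : 0 ≤ T := le_trans (Finset.sum_nonneg fun k _ => abs_nonneg _) hγ
  have hn0 : 0 < n := by omega
  have hnr : (0 : ℝ) < n := by exact_mod_cast hn0
  have hn2 : (2 : ℝ) ≤ n := by exact_mod_cast hn
  -- extended angle sequences
  set γ' : ℕ → ℝ := fun k => if h : k < p then γ ⟨k, h⟩ else 0 with hγ'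
  set β' : ℕ → ℝ := fun k => if h : k < p then β ⟨k, h⟩ else 0 with hβ'
  have hγe : ∀ k : Fin p, γ' k = γ k := by
    intro k; simp [hγ', k.2]
  have hβe : ∀ k : Fin p, β' k = β k := by
    intro k; simp [hβ', k.2]
  set D : ℕ → Hil n →ₗ[ℂ] Hil n := fun k => matL (mixU n (β' k)) with hD
  have hDn : ∀ k v, ‖D k v‖ = ‖v‖ := fun k v => norm_matL _ (mixU_unitary _) v
  have hsumγ : ∑ l ∈ range p, |γ' l| ≤ T := by
    rw [← Fin.sum_univ_eq_sum_range (fun l => |γ' l|) p]
    simp only [hγe]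
    exact hγ
  have hstate : ∀ J : Pair n → ℝ, circ D γ' (cE J) (plusH n) p
      = WithLp.toLp 2 (qaoaState J p γ β) := fun J =>
    circ_eq_qaoa J p γ β γ' β' hγe hβe
  set ψ : (Pair n → ℝ) → Conf n → ℂ := fun J => qaoaState J p γ β with hψ
  have hψc : ∀ J s, ψ J s = circ D γ' (cE J) (plusH n) p s := by
    intro J s
    rw [hstate J]
  have hmeas : ∀ s, Measurable fun J => ψ J s := by
    intro s
    have h1 := continuous_circ D γ' (plusH n) p
    have h2 : Continuous fun J : Pair n → ℝ => (circ D γ' (cE J) (plusH n) p) s :=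
      (PiLp.continuous_apply 2 _ s).comp h1
    have h3 : (fun J => ψ J s) = fun J => circ D γ' (cE J) (plusH n) p s := by
      funext J; exact hψc J s
    rw [h3]
    exact h2.measurable
  have hnorm : ∀ J, ∑ s, ‖ψ J s‖ ^ 2 = 1 := by
    intro J
    have h1 := norm_circ_real D hDn γ' J (plusH n) p
    rw [norm_plusH, EuclideanSpace.norm_eq] at h1
    have h2 : ∑ s, ‖circ D γ' (cE J) (plusH n) p s‖ ^ 2 = 1 := by
      have h3 := congrArg (fun x : ℝ => x ^ 2) h1
      simp only at h3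
      rw [Real.sq_sqrt (Finset.sum_nonneg fun s _ => by positivity)] at h3
      rw [h3]; norm_num
    simp only [hψc]
    exact h2
  have hκ : (1 : ℝ) / 2 ≤ 1 - (n : ℝ)⁻¹ := by
    have : (n : ℝ)⁻¹ ≤ 1 / 2 := by
      rw [inv_le_comm₀ hnr (by norm_num)]
      linarith
    linarith
  have hκ1 : 1 - (n : ℝ)⁻¹ ≤ 1 := by
    have : 0 < (n : ℝ)⁻¹ := by positivity
    linarith
  have hmis : ∀ i : Fin n, d0 T ≤ Dmis ψ (uvec i) := by
    intro i
    apply Dmis_lower hκ hκ1 (fun s => uvec_sq hn0 i s) hmeas hnorm hT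
    intro J
    refine ⟨fun z => Fsh D γ' (skEnergy J) i (plusH n) p z, ?_, ?_, ?_⟩
    · intro s
      exact (differentiable_euclidean.1 (differentiable_Fsh D γ' (skEnergy J) i (plusH n) p)) s
    · intro r s
      rw [hψc]
      have h1 : (fun z => ((skEnergy J z : ℝ) : ℂ) - (r : ℂ) * ((Rov i s z : ℝ) : ℂ))
          = cE (J - r • uvec i s) := by
        funext z
        unfold cE
        rw [skEnergy_shift]
        push_cast
        ring
      show circ D γ' (fun z => ((skEnergy J z : ℝ) : ℂ) - (r : ℂ) * ((Rov i s z : ℝ) : ℂ))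
        (plusH n) p s = _
      rw [h1]
    · intro z y hy
      refine le_trans (cs_pairing y _ hy) ?_
      have h1 := norm_Fsh_le D (fun k v => (hDn k v).le) γ' (skEnergy J) i (plusH n) p z
      rw [norm_plusH, mul_one, EuclideanSpace.norm_eq] at h1
      refine le_trans h1 ?_
      apply Real.exp_le_exp.mpr
      exact mul_le_mul_of_nonneg_right hsumγ (norm_nonneg _)
  -- pointwise inequality
  set q : ℝ := d0 T / 8 with hq
  have hd0 := d0_pos hT
  have hd1 := d0_le_one hT
  have hq0 : 0 ≤ q := by positivity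
  have hq1 : q ≤ 1 := by rw [hq]; linarith
  have hpt : ∀ J : Pair n → ℝ,
      qaoaMean J p γ β + 2 * q * ∑ i, ∑ s, ‖ψ J s‖ ^ 2 * max (-(tt (uvec i) s J)) 0
        ≤ (⨆ s : Conf n, skEnergy J s) + 4 * q ^ 2 * ⨆ s : Conf n, skEnergy (-J) s := by
    intro J
    rw [qaoaMean_eq]
    exact flip_avg J (fun s => ‖ψ J s‖ ^ 2) (fun s => by positivity) (hnorm J) q hq0 hq1
  have iE : Integrable (fun J : Pair n → ℝ => qaoaMean J p γ β) (gLaw (Pair n)) := by
    have h1 : (fun J : Pair n → ℝ => qaoaMean J p γ β)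
        = fun J => ∑ s, ‖ψ J s‖ ^ 2 * skEnergy J s := by
      funext J; exact qaoaMean_eq J p γ β
    rw [h1]
    apply integrable_finsetSum
    intro s _
    refine (integrable_energy s).abs.mono' ?_ (Filter.Eventually.of_forall fun J => ?_)
    · apply Measurable.aestronglyMeasurable
      exact ((hmeas s).norm.pow_const 2).mul (continuous_skEnergy s).measurable
    · rw [norm_mul, Real.norm_eq_abs, Real.norm_eq_abs, abs_of_nonneg (by positivity)]
      calc ‖ψ J s‖ ^ 2 * |skEnergy J s| ≤ 1 * |skEnergy J s| :=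
            mul_le_mul_of_nonneg_right (norm_sq_le_one (hnorm J) s) (abs_nonneg _)
        _ = _ := one_mul _
  have iM : ∀ i : Fin n, Integrable
      (fun J : Pair n → ℝ => ∑ s, ‖ψ J s‖ ^ 2 * max (-(tt (uvec i) s J)) 0) (gLaw (Pair n)) :=
    fun i => integrable_finsetSum _ fun s _ => integrable_mis ψ (uvec i) hmeas hnorm s
  have iS1 : Integrable (fun J : Pair n → ℝ => ⨆ s : Conf n, skEnergy J s) (gLaw (Pair n)) :=
    integrable_iSup (fun (s : Conf n) (J : Pair n → ℝ) => skEnergy J s)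
      (fun s => integrable_energy s) (fun s => (continuous_skEnergy s).measurable)
  have iS2 : Integrable (fun J : Pair n → ℝ => ⨆ s : Conf n, skEnergy (-J) s)
      (gLaw (Pair n)) :=
    integrable_iSup (fun (s : Conf n) (J : Pair n → ℝ) => skEnergy (-J) s)
      (fun s => integrable_energy_neg s)
      (fun s => ((continuous_skEnergy s).comp continuous_neg).measurable)
  have hint : ∫ J, (qaoaMean J p γ β
        + 2 * q * ∑ i, ∑ s, ‖ψ J s‖ ^ 2 * max (-(tt (uvec i) s J)) 0) ∂(gLaw (Pair n))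
      ≤ ∫ J : Pair n → ℝ, ((⨆ s : Conf n, skEnergy J s)
        + 4 * q ^ 2 * ⨆ s : Conf n, skEnergy (-J) s) ∂(gLaw (Pair n)) := by
    apply integral_mono
    · exact iE.add ((integrable_finsetSum _ fun i _ => iM i).const_mul _)
    · exact iS1.add (iS2.const_mul _)
    · exact hpt
  rw [integral_add iE ((integrable_finsetSum _ fun i _ => iM i).const_mul _),
    integral_add iS1 (iS2.const_mul _), integral_const_mul, integral_const_mul,
    integral_finsetSum _ fun i _ => iM i] at hint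
  have hsumD : (n : ℝ) * d0 T ≤ ∑ i : Fin n,
      ∫ J : Pair n → ℝ, ∑ s, ‖ψ J s‖ ^ 2 * max (-(tt (uvec i) s J)) 0 ∂(gLaw (Pair n)) := by
    calc (n : ℝ) * d0 T = ∑ _i : Fin n, d0 T := by simp
      _ ≤ _ := Finset.sum_le_sum fun i _ => hmis i
  have hneg := integral_sup_neg_le hn0
  have hQ : (n : ℝ) * qaoaValue n p γ β = ∫ J, qaoaMean J p γ β ∂(gLaw (Pair n)) := by
    unfold qaoaValue couplingLaw
    rw [← mul_assoc, mul_inv_cancel₀ hnr.ne', one_mul]
  have hP : (n : ℝ) * groundValue n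
      = ∫ J : Pair n → ℝ, (⨆ s : Conf n, skEnergy J s) ∂(gLaw (Pair n)) := by
    unfold groundValue couplingLaw
    rw [← mul_assoc, mul_inv_cancel₀ hnr.ne', one_mul]
  rw [← hQ, ← hP] at hint
  have h1 : 2 * q * ((n : ℝ) * d0 T) ≤ 2 * q * ∑ i : Fin n,
      ∫ J : Pair n → ℝ, ∑ s, ‖ψ J s‖ ^ 2 * max (-(tt (uvec i) s J)) 0 ∂(gLaw (Pair n)) :=
    mul_le_mul_of_nonneg_left hsumD (by positivity)
  have h2 : 4 * q ^ 2 * ∫ J : Pair n → ℝ, (⨆ s : Conf n, skEnergy (-J) s) ∂(gLaw (Pair n))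
      ≤ 4 * q ^ 2 * (2 * n) := mul_le_mul_of_nonneg_left hneg (by positivity)
  have h3 : (n : ℝ) * qaoaValue n p γ β + (n : ℝ) * (d0 T ^ 2 / 8) ≤ (n : ℝ) * groundValue n := by
    have h4 : 2 * q * ((n : ℝ) * d0 T) - 4 * q ^ 2 * (2 * n) = (n : ℝ) * (d0 T ^ 2 / 8) := by
      rw [hq]; ring
    linarith
  have h5 : qaoaValue n p γ β + d0 T ^ 2 / 8 ≤ groundValue n := by
    have : (n : ℝ) * (qaoaValue n p γ β + d0 T ^ 2 / 8) ≤ (n : ℝ) * groundValue n := by
      rw [mul_add]; exact h3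
    exact le_of_mul_le_mul_left this hnr
  have h6 := d0_sq_lower hT
  exact le_sub_iff_add_le.mpr (le_trans (add_le_add le_rfl h6) h5)

/-- **Main theorem**, limit form. -/
theorem gap_limit (T : ℝ) (p : ℕ) (γ β : Fin p → ℝ) (hγ : ∑ k, |γ k| ≤ T) (v P : ℝ)
    (hv : Tendsto (fun n => qaoaValue n p γ β) atTop (𝓝 v))
    (hP : Tendsto groundValue atTop (𝓝 P)) :
    v ≤ P - Real.exp (-(10 ^ 8 * (1 + T) ^ 2)) := by
  apply le_of_tendsto_of_tendsto hv (hP.sub_const _)
  filter_upwards [eventually_ge_atTop 2] with n hn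
  exact gap_finite T n hn p γ β hγ

end Vale.Agent.P367.Gap
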