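import Vale.Agent.P367.MathlibUsed

open MeasureTheory ProbabilityTheory Matrix

namespace Vale.Agent.P367.Gap

/-- Computational-basis labels of `n` qubits; `false` is the basis vector 0, `true` is 1. -/
abbrev Conf (n : ℕ) : Type := Fin n → Bool

/-- The eigenvalue of the Pauli matrix Z on a basis vector: `+1` on 0 and `-1` on 1. -/
def spin (b : Bool) : ℝ := if b then -1 else 1

/-- Pairs `i < j` of sites. -/
abbrev Pair (n : ℕ) : Type := {e : Fin n × Fin n // e.1 < e.2}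

/-- The classical SK Hamiltonian `n^{-1/2} ∑_{i<j} J_ij σ_i σ_j`. -/
noncomputable def skEnergy {n : ℕ} (J : Pair n → ℝ) (s : Conf n) : ℝ :=
  (Real.sqrt n)⁻¹ * ∑ e : Pair n, J e * (spin (s e.1.1) * spin (s e.1.2))

/-- The law of the couplings: independent standard Gaussians. -/
noncomputable def couplingLaw (n : ℕ) : Measure (Pair n → ℝ) :=
  Measure.pi fun _ => gaussianReal 0 1

/-- `(1/n) E max_σ h(σ)`. -/
noncomputable def groundValue (n : ℕ) : ℝ :=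
  (n : ℝ)⁻¹ * ∫ J, (⨆ s : Conf n, skEnergy J s) ∂(couplingLaw n)

/-- Pauli `X` on site `i`. -/
def pauliX {n : ℕ} (i : Fin n) : Matrix (Conf n) (Conf n) ℂ :=
  Matrix.of fun s t => if s = Function.update t i (!(t i)) then 1 else 0

/-- Pauli `Z` on site `i`. -/
noncomputable def pauliZ {n : ℕ} (i : Fin n) : Matrix (Conf n) (Conf n) ℂ :=
  Matrix.diagonal fun s => ((spin (s i) : ℝ) : ℂ)

/-- The mixer `B_n = ∑ X_i`. -/
def mixer (n : ℕ) : Matrix (Conf n) (Conf n) ℂ := ∑ i : Fin n, pauliX i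

/-- The cost operator `C_{n,J} = n^{-1/2} ∑_{i<j} J_ij Z_i Z_j`. -/
noncomputable def costOp {n : ℕ} (J : Pair n → ℝ) : Matrix (Conf n) (Conf n) ℂ :=
  (((Real.sqrt n)⁻¹ : ℝ) : ℂ) • ∑ e : Pair n, ((J e : ℝ) : ℂ) • (pauliZ e.1.1 * pauliZ e.1.2)

/-- The state `|+⟩^{⊗n}`: all amplitudes `2^{-n/2}`. -/
noncomputable def plusState (n : ℕ) : Conf n → ℂ := fun _ => (((Real.sqrt 2)⁻¹ ^ n : ℝ) : ℂ)

/-- The depth-`p` QAOA state. -/
noncomputable def qaoaState {n : ℕ} (J : Pair n → ℝ) :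
    (p : ℕ) → (Fin p → ℝ) → (Fin p → ℝ) → (Conf n → ℂ)
  | 0, _, _ => plusState n
  | p + 1, γ, β =>
      NormedSpace.exp ((-(Complex.I * (β (Fin.last p) : ℂ))) • mixer n) *ᵥ
        (NormedSpace.exp ((-(Complex.I * (γ (Fin.last p) : ℂ))) • costOp J) *ᵥ
          qaoaState J p (fun k => γ k.castSucc) (fun k => β k.castSucc))

/-- `⟨ψ|C|ψ⟩` in the QAOA state. -/
noncomputable def qaoaMean {n : ℕ} (J : Pair n → ℝ) (p : ℕ) (γ β : Fin p → ℝ) : ℝ :=
  (star (qaoaState J p γ β) ⬝ᵥ (costOp J *ᵥ qaoaState J p γ β)).re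

/-- `(1/n) E ⟨ψ|C|ψ⟩`. -/
noncomputable def qaoaValue (n p : ℕ) (γ β : Fin p → ℝ) : ℝ :=
  (n : ℝ)⁻¹ * ∫ J, qaoaMean J p γ β ∂(couplingLaw n)

end Vale.Agent.P367.Gap
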