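import Mathlib
import Vale.Agent.P367.Gap.Defs

namespace Vale.Agent.P367.Gap

open Finset

lemma spin_sq (b : Bool) : spin b * spin b = 1 := by cases b <;> simp [spin]

lemma abs_spin (b : Bool) : |spin b| = 1 := by cases b <;> simp [spin]

/-- The Hilbert space of `n` qubits. -/
abbrev Hil (n : ℕ) : Type := EuclideanSpace ℂ (Conf n)

variable {n : ℕ}

/-- diagonal multiplication -/
noncomputable def diagL (d : Conf n → ℂ) : Hil n →ₗ[ℂ] Hil n where
  toFun v := WithLp.toLp 2 fun σ => d σ * v σ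
  map_add' u v := by ext σ; simp [mul_add]
  map_smul' c v := by ext σ; simp [mul_left_comm]

@[simp] lemma diagL_apply (d : Conf n → ℂ) (v : Hil n) (σ : Conf n) :
    diagL d v σ = d σ * v σ := rfl

lemma norm_diagL_le {d : Conf n → ℂ} {M : ℝ} (hM : 0 ≤ M) (hd : ∀ σ, ‖d σ‖ ≤ M) (v : Hil n) :
    ‖diagL d v‖ ≤ M * ‖v‖ := by
  rw [EuclideanSpace.norm_eq, EuclideanSpace.norm_eq, ← Real.sqrt_sq hM,
    ← Real.sqrt_mul (sq_nonneg M)]
  refine Real.sqrt_le_sqrt ?_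
  rw [mul_sum]
  refine sum_le_sum fun σ _ => ?_
  rw [diagL_apply, norm_mul, mul_pow]
  have := hd σ
  gcongr

lemma norm_diagL_eq {d : Conf n → ℂ} (hd : ∀ σ, ‖d σ‖ = 1) (v : Hil n) :
    ‖diagL d v‖ = ‖v‖ := by
  rw [EuclideanSpace.norm_eq, EuclideanSpace.norm_eq]
  congr 1
  refine sum_congr rfl fun σ _ => ?_
  rw [diagL_apply, norm_mul, hd, one_mul]

/-- The phase separator `exp(-iγE)` with a (possibly complex) energy function `E`. -/
noncomputable def phaseL (γ : ℝ) (E : Conf n → ℂ) : Hil n →ₗ[ℂ] Hil n :=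
  diagL fun σ => Complex.exp (-(Complex.I * γ * E σ))

/-- The state after `k` layers: `D k ∘ exp(-i γ_k E)`. -/
noncomputable def circ (D : ℕ → Hil n →ₗ[ℂ] Hil n) (γ : ℕ → ℝ) (E : Conf n → ℂ) (v : Hil n) :
    ℕ → Hil n
  | 0 => v
  | k + 1 => D k (phaseL (γ k) E (circ D γ E v k))

/-- Atomic norm bound for configuration-dependent vectors. -/
def WB (K : ℝ) (Φ : Conf n → Hil n) : Prop :=
  ∃ (ι : Type) (_ : Fintype ι) (χ : ι → Conf n → ℂ) (c : ι → Hil n),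
    (∀ a σ, ‖χ a σ‖ ≤ 1) ∧ (∀ σ, Φ σ = ∑ a, χ a σ • c a) ∧ ∑ a, ‖c a‖ ≤ K

lemma WB.const (v : Hil n) : WB ‖v‖ (fun _ => v) :=
  ⟨Unit, inferInstance, fun _ _ => 1, fun _ => v, by simp, by simp, by simp⟩

lemma WB.mono {K K' : ℝ} {Φ : Conf n → Hil n} (h : WB K Φ) (hK : K ≤ K') : WB K' Φ := by
  obtain ⟨ι, hι, χ, c, h1, h2, h3⟩ := h
  exact ⟨ι, hι, χ, c, h1, h2, h3.trans hK⟩

lemma WB.congr {K : ℝ} {Φ Ψ : Conf n → Hil n} (h : WB K Φ) (hK : ∀ σ, Ψ σ = Φ σ) : WB K Ψ := by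
  obtain ⟨ι, hι, χ, c, h1, h2, h3⟩ := h
  exact ⟨ι, hι, χ, c, h1, fun σ => (hK σ).trans (h2 σ), h3⟩

lemma WB.nonneg {K : ℝ} {Φ : Conf n → Hil n} (h : WB K Φ) : 0 ≤ K := by
  obtain ⟨ι, hι, χ, c, h1, h2, h3⟩ := h
  exact (sum_nonneg fun _ _ => norm_nonneg _).trans h3

lemma WB.add {K K' : ℝ} {Φ Ψ : Conf n → Hil n} (h : WB K Φ) (h' : WB K' Ψ) :
    WB (K + K') (fun σ => Φ σ + Ψ σ) := by
  obtain ⟨ι, hι, χ, c, h1, h2, h3⟩ := h
  obtain ⟨ι', hι', χ', c', h1', h2', h3'⟩ := h'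
  refine ⟨ι ⊕ ι', inferInstance, Sum.elim χ χ', Sum.elim c c', ?_, ?_, ?_⟩
  · rintro (a | a) σ
    · exact h1 a σ
    · exact h1' a σ
  · intro σ
    simp only [Fintype.sum_sum_type, Sum.elim_inl, Sum.elim_inr]
    rw [h2, h2']
  · simp only [Fintype.sum_sum_type, Sum.elim_inl, Sum.elim_inr]
    exact add_le_add h3 h3'

lemma WB.smul {K : ℝ} {Φ : Conf n → Hil n} (h : WB K Φ) (c₀ : ℂ) (χ₀ : Conf n → ℂ)
    (hχ : ∀ σ, ‖χ₀ σ‖ ≤ 1) : WB (‖c₀‖ * K) (fun σ => (c₀ * χ₀ σ) • Φ σ) := by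
  obtain ⟨ι, hι, χ, c, h1, h2, h3⟩ := h
  refine ⟨ι, hι, fun a σ => χ₀ σ * χ a σ, fun a => c₀ • c a, ?_, ?_, ?_⟩
  · intro a σ
    simp only [norm_mul]
    exact mul_le_one₀ (hχ σ) (norm_nonneg _) (h1 a σ)
  · intro σ
    simp only [h2, smul_sum, smul_smul]
    refine sum_congr rfl fun a _ => ?_
    congr 1
    ring
  · simp only [norm_smul, ← mul_sum]
    exact mul_le_mul_of_nonneg_left h3 (norm_nonneg _)

lemma WB.map {K : ℝ} {Φ : Conf n → Hil n} (h : WB K Φ) (T : Hil n →ₗ[ℂ] Hil n)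
    (hT : ∀ v, ‖T v‖ ≤ ‖v‖) : WB K (fun σ => T (Φ σ)) := by
  obtain ⟨ι, hι, χ, c, h1, h2, h3⟩ := h
  refine ⟨ι, hι, χ, fun a => T (c a), h1, ?_, ?_⟩
  · intro σ
    simp only [h2, map_sum, map_smul]
  · exact (sum_le_sum fun a _ => hT (c a)).trans h3

lemma WB.eval {K : ℝ} {Φ : Conf n → Hil n} (h : WB K Φ) :
    ‖(WithLp.toLp 2 fun σ => Φ σ σ : Hil n)‖ ≤ K := by
  obtain ⟨ι, hι, χ, c, h1, h2, h3⟩ := h
  refine le_trans ?_ h3
  have : (WithLp.toLp 2 fun σ => Φ σ σ : Hil n) = ∑ a, diagL (χ a) (c a) := by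
    ext σ
    rw [PiLp.toLp_apply, h2]
    simp
  rw [this]
  refine (norm_sum_le _ _).trans (sum_le_sum fun a _ => ?_)
  have := norm_diagL_le (zero_le_one) (h1 a) (c a)
  simpa using this

lemma norm_cosh_add_norm_sinh_le (w : ℂ) :
    ‖Complex.cosh w‖ + ‖Complex.sinh w‖ ≤ Real.exp ‖w‖ := by
  rw [← Real.cosh_add_sinh]
  refine add_le_add ?_ ?_
  · rw [← (Complex.hasSum_cosh w).tsum_eq]
    refine tsum_of_norm_bounded (Real.hasSum_cosh ‖w‖) fun k => ?_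
    simp
  · rw [← (Complex.hasSum_sinh w).tsum_eq]
    refine tsum_of_norm_bounded (Real.hasSum_sinh ‖w‖) fun k => ?_
    simp

lemma exp_mul_sign (w : ℂ) (ε : ℝ) (hε : ε * ε = 1) :
    Complex.exp (w * ε) = Complex.cosh w + ε * Complex.sinh w := by
  have h : ε = 1 ∨ ε = -1 := mul_self_eq_one_iff.1 hε
  rcases h with rfl | rfl
  · simp [Complex.cosh_add_sinh]
  · simp only [Complex.ofReal_neg, Complex.ofReal_one, mul_neg, mul_one, neg_mul, one_mul,
      ← sub_eq_add_neg, Complex.cosh_sub_sinh]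

/-- one elementary gate `exp(w r(σ) s)` -/
lemma WB.gate {K : ℝ} {Φ : Conf n → Hil n} (h : WB K Φ) (w : ℂ) (r s : Conf n → ℝ)
    (hr : ∀ σ, r σ * r σ = 1) (hs : ∀ σ, s σ * s σ = 1) :
    WB (Real.exp ‖w‖ * K) (fun σ => diagL (fun z => Complex.exp (w * (r σ * s z : ℝ))) (Φ σ)) := by
  have hr1 : ∀ σ, ‖((r σ : ℝ) : ℂ)‖ ≤ 1 := fun σ => by
    rw [Complex.norm_real, Real.norm_eq_abs]
    rcases mul_self_eq_one_iff.1 (hr σ) with h | h <;> simp [h]
  have hs1 : ∀ σ, ‖((s σ : ℝ) : ℂ)‖ ≤ 1 := fun σ => by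
    rw [Complex.norm_real, Real.norm_eq_abs]
    rcases mul_self_eq_one_iff.1 (hs σ) with h | h <;> simp [h]
  have hS : ∀ v : Hil n, ‖diagL (fun z => ((s z : ℝ) : ℂ)) v‖ ≤ ‖v‖ := fun v => by
    simpa using norm_diagL_le zero_le_one hs1 v
  have h1 := (h.smul (Complex.cosh w) (fun _ => 1) (by simp)).add
    ((h.map _ hS).smul (Complex.sinh w) (fun σ => ((r σ : ℝ) : ℂ)) hr1)
  have h2 : ‖Complex.cosh w‖ * K + ‖Complex.sinh w‖ * K ≤ Real.exp ‖w‖ * K := by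
    rw [← add_mul]
    exact mul_le_mul_of_nonneg_right (norm_cosh_add_norm_sinh_le w) h.nonneg
  refine (h1.mono h2).congr fun σ => ?_
  ext z
  have h3 := exp_mul_sign w (r σ * s z) (by
    rw [mul_mul_mul_comm, hr, hs, one_mul])
  simp only [diagL_apply, PiLp.add_apply, PiLp.smul_apply, smul_eq_mul, h3]
  push_cast
  ring

/-- many elementary gates -/
lemma WB.gates {K : ℝ} {Φ : Conf n → Hil n} (h : WB K Φ) (w : ℂ) {ι : Type*} (S : Finset ι)
    (r s : ι → Conf n → ℝ)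
    (hr : ∀ j σ, r j σ * r j σ = 1) (hs : ∀ j σ, s j σ * s j σ = 1) :
    WB (Real.exp (S.card * ‖w‖) * K)
      (fun σ => diagL (fun z => Complex.exp (w * (∑ j ∈ S, r j σ * s j z : ℝ))) (Φ σ)) := by
  classical
  induction S using Finset.induction_on with
  | empty =>
    refine (h.mono ?_).congr fun σ => ?_
    · simp
    · ext z; simp
  | insert j S hj ih =>
    refine ((ih.gate w (r j) (s j) (hr j) (hs j)).mono (le_of_eq ?_)).congr fun σ => ?_
    · rw [card_insert_of_notMem hj, ← mul_assoc, ← Real.exp_add]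
      push_cast
      ring_nf
    · ext z
      simp only [diagL_apply]
      rw [← mul_assoc, ← Complex.exp_add, sum_insert hj]
      push_cast
      ring_nf

/-- The overlap-type function `R_σ(z) = (1/n) ∑_{j ≠ i} σ_i σ_j z_i z_j`. -/
noncomputable def Rov (i : Fin n) (σ z : Conf n) : ℝ :=
  (n : ℝ)⁻¹ * ∑ j ∈ univ.erase i, (spin (σ i) * spin (σ j)) * (spin (z i) * spin (z j))

lemma spin2_sq (i j : Fin n) (σ : Conf n) :
    (spin (σ i) * spin (σ j)) * (spin (σ i) * spin (σ j)) = 1 := by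
  rw [mul_mul_mul_comm, spin_sq, spin_sq, one_mul]

lemma norm_exp_I_real (x : ℝ) : ‖Complex.exp (-(Complex.I * x))‖ = 1 := by
  rw [show -(Complex.I * (x : ℂ)) = ((-x : ℝ) : ℂ) * Complex.I by push_cast; ring]
  exact Complex.norm_exp_ofReal_mul_I _

theorem WB_circ (D : ℕ → Hil n →ₗ[ℂ] Hil n) (hD : ∀ k v, ‖D k v‖ ≤ ‖v‖) (γ : ℕ → ℝ)
    (E0 : Conf n → ℝ) (i : Fin n) (ζ : ℂ) (v : Hil n) (k : ℕ) :
    WB (Real.exp ((∑ l ∈ range k, |γ l|) * ‖ζ‖) * ‖v‖)
      (fun σ => circ D γ (fun z => (E0 z : ℂ) - ζ * (Rov i σ z : ℝ)) v k) := by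
  have hn : 0 < n := i.pos
  have hn' : (0 : ℝ) < n := by exact_mod_cast hn
  induction k with
  | zero => simpa [circ] using WB.const v
  | succ k ih =>
    have h1 := ih.gates (Complex.I * γ k * ζ / n) (univ.erase i)
      (fun j σ => spin (σ i) * spin (σ j)) (fun j z => spin (z i) * spin (z j))
      (fun j σ => spin2_sq i j σ) (fun j z => spin2_sq i j z)
    have hph : ∀ v : Hil n, ‖diagL (fun z => Complex.exp (-(Complex.I * (γ k * E0 z : ℝ)))) v‖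
        ≤ ‖v‖ := fun v =>
      (norm_diagL_eq (fun z => norm_exp_I_real _) v).le
    have h2 := (h1.map _ hph).map (D k) (hD k)
    refine (h2.mono ?_).congr fun σ => ?_
    · rw [← mul_assoc, ← Real.exp_add, sum_range_succ]
      refine mul_le_mul_of_nonneg_right (Real.exp_le_exp.2 ?_) (norm_nonneg _)
      have h3 : ((univ.erase i).card : ℝ) * ‖Complex.I * γ k * ζ / n‖ ≤ |γ k| * ‖ζ‖ := by
        have h4 : ((univ.erase i).card : ℝ) ≤ n := by
          have : (univ.erase i).card ≤ n := by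
            refine (card_le_univ _).trans ?_
            simp
          exact_mod_cast this
        have h5 : ‖Complex.I * γ k * ζ / n‖ = |γ k| * ‖ζ‖ / n := by
          simp
        rw [h5]
        calc ((univ.erase i).card : ℝ) * (|γ k| * ‖ζ‖ / n) ≤ n * (|γ k| * ‖ζ‖ / n) := by
              gcongr
          _ = |γ k| * ‖ζ‖ := by field_simp
      linarith
    · simp only [circ]
      congr 1
      ext z
      simp only [phaseL, diagL_apply]
      rw [← mul_assoc, ← Complex.exp_add]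
      congr 2
      simp only [Rov]
      generalize (∑ j ∈ univ.erase i, spin (σ i) * spin (σ j) * (spin (z i) * spin (z j)) : ℝ) = S
      push_cast
      have : (n : ℂ) ≠ 0 := by exact_mod_cast hn.ne'
      field_simp
      ring

/-- The measured-direction shifted amplitude, as an entire function. -/
noncomputable def Fsh (D : ℕ → Hil n →ₗ[ℂ] Hil n) (γ : ℕ → ℝ) (E0 : Conf n → ℝ) (i : Fin n)
    (v : Hil n) (p : ℕ) (ζ : ℂ) : Hil n :=
  WithLp.toLp 2 fun σ => circ D γ (fun z => (E0 z : ℂ) - ζ * (Rov i σ z : ℝ)) v p σ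

theorem norm_Fsh_le (D : ℕ → Hil n →ₗ[ℂ] Hil n) (hD : ∀ k v, ‖D k v‖ ≤ ‖v‖) (γ : ℕ → ℝ)
    (E0 : Conf n → ℝ) (i : Fin n) (v : Hil n) (p : ℕ) (ζ : ℂ) :
    ‖Fsh D γ E0 i v p ζ‖ ≤ Real.exp ((∑ l ∈ range p, |γ l|) * ‖ζ‖) * ‖v‖ :=
  (WB_circ D hD γ E0 i ζ v p).eval

lemma differentiable_circ (D : ℕ → Hil n →ₗ[ℂ] Hil n) (γ : ℕ → ℝ)
    (E0 R : Conf n → ℝ) (v : Hil n) (k : ℕ) :
    Differentiable ℂ (fun ζ : ℂ => circ D γ (fun z => (E0 z : ℂ) - ζ * (R z : ℝ)) v k) := by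
  induction k with
  | zero => simp only [circ]; exact differentiable_const v
  | succ k ih =>
    simp only [circ]
    have h1 : Differentiable ℂ (fun ζ : ℂ => phaseL (γ k) (fun z => (E0 z : ℂ) - ζ * (R z : ℝ))
        (circ D γ (fun z => (E0 z : ℂ) - ζ * (R z : ℝ)) v k)) := by
      rw [differentiable_euclidean]
      intro z
      simp only [phaseL, diagL_apply]
      have h2 := (differentiable_euclidean.1 ih) z
      fun_prop
    exact (LinearMap.toContinuousLinearMap (D k)).differentiable.comp h1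

theorem differentiable_Fsh (D : ℕ → Hil n →ₗ[ℂ] Hil n) (γ : ℕ → ℝ)
    (E0 : Conf n → ℝ) (i : Fin n) (v : Hil n) (p : ℕ) :
    Differentiable ℂ (Fsh D γ E0 i v p) := by
  rw [differentiable_euclidean]
  intro σ
  exact (differentiable_euclidean.1 (differentiable_circ D γ E0 (Rov i σ) v p)) σ

end Vale.Agent.P367.Gap
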