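import Mathlib

open Finset Polynomial

namespace Vale.Agent.P367.Gap

lemma poly_extrap (N : ℕ) (Q : Polynomial ℂ) (hQ : Q.natDegree ≤ N) (M : ℝ)
    (hM : ∀ j ≤ N, ‖Q.eval (j : ℂ)‖ ≤ M) : ‖Q.eval ((2 * N : ℕ) : ℂ)‖ ≤ 8 ^ N * M := by
  have hM0 : 0 ≤ M := le_trans (norm_nonneg _) (hM 0 (Nat.zero_le _))
  have h1 := shift_eq_sum_fwdDiff_iter (1 : ℂ) (fun x => Q.eval x) (2 * N) 0
  have h2 : (0 : ℂ) + (2 * N) • (1 : ℂ) = ((2 * N : ℕ) : ℂ) := by simp
  rw [h2] at h1
  have h3 : ∀ k ∈ range (2 * N + 1),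
      ‖(2 * N).choose k • (fwdDiff (1 : ℂ))^[k] (fun x => Q.eval x) 0‖
        ≤ ((2 * N).choose k : ℝ) * (2 ^ N * M) := by
    intro k _
    rw [nsmul_eq_mul, norm_mul, Complex.norm_natCast]
    apply mul_le_mul_of_nonneg_left _ (Nat.cast_nonneg _)
    rcases lt_or_ge N k with hk | hk
    · have : (fwdDiff (1 : ℂ))^[k] (fun x => Q.eval x) = 0 :=
        Polynomial.fwdDiff_iter_eq_zero_of_degree_lt (lt_of_le_of_lt hQ hk)
      rw [this]
      simp only [Pi.zero_apply, norm_zero]
      positivity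
    · rw [fwdDiff_iter_eq_sum_shift]
      calc ‖∑ j ∈ range (k + 1), ((-1 : ℤ) ^ (k - j) * k.choose j) • Q.eval (0 + j • (1 : ℂ))‖
          ≤ ∑ j ∈ range (k + 1), ‖((-1 : ℤ) ^ (k - j) * k.choose j) • Q.eval (0 + j • (1 : ℂ))‖ :=
            norm_sum_le _ _
        _ ≤ ∑ j ∈ range (k + 1), (k.choose j : ℝ) * M := by
            apply Finset.sum_le_sum
            intro j hj
            have hj' : j ≤ N := le_trans (Nat.lt_succ_iff.mp (mem_range.mp hj)) hk
            rw [zsmul_eq_mul, norm_mul]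
            have e1 : ‖(((-1 : ℤ) ^ (k - j) * (k.choose j : ℤ) : ℤ) : ℂ)‖ = (k.choose j : ℝ) := by
              push_cast
              rw [norm_mul, norm_pow, norm_neg, norm_one, one_pow, one_mul, Complex.norm_natCast]
            rw [e1]
            apply mul_le_mul_of_nonneg_left _ (Nat.cast_nonneg _)
            have := hM j hj'
            simpa using this
        _ = 2 ^ k * M := by
            rw [← Finset.sum_mul]
            congr 1
            exact_mod_cast Nat.sum_range_choose k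
        _ ≤ 2 ^ N * M := by
            apply mul_le_mul_of_nonneg_right _ hM0
            exact pow_le_pow_right₀ (by norm_num) hk
  rw [h1]
  calc ‖∑ k ∈ range (2 * N + 1), (2 * N).choose k • (fwdDiff (1 : ℂ))^[k] (fun x => Q.eval x) 0‖
      ≤ ∑ k ∈ range (2 * N + 1),
        ‖(2 * N).choose k • (fwdDiff (1 : ℂ))^[k] (fun x => Q.eval x) 0‖ := norm_sum_le _ _
    _ ≤ ∑ k ∈ range (2 * N + 1), ((2 * N).choose k : ℝ) * (2 ^ N * M) := Finset.sum_le_sum h3
    _ = 2 ^ (2 * N) * (2 ^ N * M) := by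
        rw [← Finset.sum_mul]
        congr 1
        exact_mod_cast Nat.sum_range_choose (2 * N)
    _ = 8 ^ N * M := by
        rw [pow_mul, ← mul_assoc, ← mul_pow]
        norm_num

lemma entire_extrap (T S : ℝ) (hT : 0 ≤ T) (hS : 0 < S) (N : ℕ) (hN : 0 < N)
    (hN' : 50 * T * S ≤ N) (F : ℂ → ℂ) (hF : Differentiable ℂ F)
    (hb : ∀ z, ‖F z‖ ≤ Real.exp (T * ‖z‖)) (h0 : F 0 = 1) :
    1 / 2 ≤ 8 ^ N * ∑ k ∈ range (N + 1), ‖F ((2 * S - k * (S / N) : ℝ) : ℂ)‖ := by
  have hNr : (0 : ℝ) < N := by exact_mod_cast hN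
  set R : ℝ := 32 * S with hR
  have hR0 : 0 < R := by positivity
  set E : ℝ := Real.exp (T * R) with hE
  have hE0 : 0 < E := Real.exp_pos _
  set c : ℕ → ℂ := fun m => ((m.factorial : ℂ))⁻¹ * iteratedDeriv m F 0 with hc
  have hcb : ∀ m, ‖c m‖ ≤ E / R ^ m := by
    intro m
    have h := Complex.norm_iteratedDeriv_le_of_forall_mem_sphere_norm_le (c := 0) (R := R)
      (C := E) m hR0 hF.diffContOnCl (by
        intro z hz
        have hz' : ‖z‖ = R := by simpa using hz
        have := hb z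
        rwa [hz'] at this)
    have hm : (0 : ℝ) < m.factorial := by exact_mod_cast m.factorial_pos
    simp only [hc, norm_mul, norm_inv, Complex.norm_natCast]
    rw [inv_mul_le_iff₀ hm]
    calc ‖iteratedDeriv m F 0‖ ≤ m.factorial * E / R ^ m := h
      _ = m.factorial * (E / R ^ m) := by ring
  have hsum : ∀ z : ℂ, HasSum (fun m => c m * z ^ m) (F z) := by
    intro z
    have h := Complex.hasSum_taylorSeries_of_entire hF 0 z
    have e : (fun m => c m * z ^ m)
        = fun n : ℕ => ((n.factorial : ℂ))⁻¹ • (z - 0) ^ n • iteratedDeriv n F 0 := by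
      funext m
      simp only [hc, sub_zero, smul_eq_mul]
      ring
    rw [e]
    exact h
  set P : Polynomial ℂ := ∑ m ∈ range (N + 1), Polynomial.monomial m (c m) with hP
  have hPdeg : P.natDegree ≤ N := by
    apply Polynomial.natDegree_sum_le_of_forall_le
    intro m hm
    exact le_trans (Polynomial.natDegree_monomial_le _) (Nat.lt_succ_iff.mp (mem_range.mp hm))
  have hPeval : ∀ z, P.eval z = ∑ m ∈ range (N + 1), c m * z ^ m := by
    intro z
    simp [hP, Polynomial.eval_finsetSum, Polynomial.eval_monomial]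
  set tl : ℝ := E * (1 / 16) ^ (N + 1) * 2 with htl
  have htl0 : 0 ≤ tl := by positivity
  have htail : ∀ z : ℂ, ‖z‖ ≤ 2 * S → ‖P.eval z‖ ≤ ‖F z‖ + tl := by
    intro z hz
    have hs := hsum z
    have h1 : HasSum (fun m => c (m + (N + 1)) * z ^ (m + (N + 1)))
        (F z - ∑ m ∈ range (N + 1), c m * z ^ m) := by
      exact (hasSum_nat_add_iff' (N + 1)).mpr hs
    have hterm : ∀ m, ‖c (m + (N + 1)) * z ^ (m + (N + 1))‖
        ≤ E * (1 / 16) ^ (N + 1) * (1 / 16) ^ m := by
      intro m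
      rw [norm_mul, norm_pow]
      calc ‖c (m + (N + 1))‖ * ‖z‖ ^ (m + (N + 1))
          ≤ E / R ^ (m + (N + 1)) * (2 * S) ^ (m + (N + 1)) := by
            apply mul_le_mul (hcb _) (pow_le_pow_left₀ (norm_nonneg _) hz _) (by positivity)
              (by positivity)
        _ = E * ((2 * S) / R) ^ (m + (N + 1)) := by
            rw [div_pow]; ring
        _ = E * (1 / 16) ^ (m + (N + 1)) := by
            congr 2
            rw [hR]
            field_simp
            norm_num
        _ = E * (1 / 16) ^ (N + 1) * (1 / 16) ^ m := by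
            rw [pow_add]; ring
    have hgeo : HasSum (fun m : ℕ => E * (1 / 16 : ℝ) ^ (N + 1) * (1 / 16) ^ m)
        (E * (1 / 16) ^ (N + 1) * (1 - 1 / 16)⁻¹) :=
      (hasSum_geometric_of_lt_one (by norm_num) (by norm_num)).mul_left _
    have h2 : ‖F z - ∑ m ∈ range (N + 1), c m * z ^ m‖
        ≤ E * (1 / 16) ^ (N + 1) * (1 - 1 / 16)⁻¹ := by
      rw [← h1.tsum_eq]
      exact tsum_of_norm_bounded hgeo hterm
    have h3 : E * (1 / 16 : ℝ) ^ (N + 1) * (1 - 1 / 16)⁻¹ ≤ tl := by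
      rw [htl]
      apply mul_le_mul_of_nonneg_left _ (by positivity)
      norm_num
    rw [← hPeval] at h2
    calc ‖P.eval z‖ = ‖F z - (F z - P.eval z)‖ := by ring_nf
      _ ≤ ‖F z‖ + ‖F z - P.eval z‖ := norm_sub_le _ _
      _ ≤ ‖F z‖ + tl := by linarith
  -- the polynomial in the node variable
  set Q : Polynomial ℂ :=
    P.comp (Polynomial.C ((2 * S : ℝ) : ℂ) - Polynomial.C ((S / N : ℝ) : ℂ) * Polynomial.X) with hQ
  have hQeval : ∀ y : ℂ, Q.eval y = P.eval (((2 * S : ℝ) : ℂ) - ((S / N : ℝ) : ℂ) * y) := by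
    intro y
    simp [hQ, Polynomial.eval_comp]
  have hQdeg : Q.natDegree ≤ N := by
    have h1 : (Polynomial.C ((2 * S : ℝ) : ℂ)
        - Polynomial.C ((S / N : ℝ) : ℂ) * Polynomial.X).natDegree ≤ 1 := by
      apply le_trans (Polynomial.natDegree_sub_le _ _)
      apply max_le
      · rw [Polynomial.natDegree_C]; exact Nat.zero_le _
      · refine le_trans (Polynomial.natDegree_C_mul_le _ _) ?_
        exact Polynomial.natDegree_X_le
    calc Q.natDegree ≤ P.natDegree * _ := Polynomial.natDegree_comp_le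
      _ ≤ N * 1 := Nat.mul_le_mul hPdeg h1
      _ = N := by ring
  set M : ℝ := (∑ k ∈ range (N + 1), ‖F ((2 * S - k * (S / N) : ℝ) : ℂ)‖) + tl with hM
  have hnode : ∀ j ≤ N, ‖Q.eval (j : ℂ)‖ ≤ M := by
    intro j hj
    have hjr : (j : ℝ) ≤ N := by exact_mod_cast hj
    have e1 : ((2 * S : ℝ) : ℂ) - ((S / N : ℝ) : ℂ) * (j : ℂ)
        = ((2 * S - j * (S / N) : ℝ) : ℂ) := by push_cast; ring
    rw [hQeval, e1]
    have hfrac : (j : ℝ) * (S / N) ≤ S := by
      rw [mul_div_assoc', div_le_iff₀ hNr, mul_comm]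
      exact mul_le_mul_of_nonneg_left hjr hS.le
    have hnn : 0 ≤ (j : ℝ) * (S / N) := by positivity
    have hz : ‖((2 * S - j * (S / N) : ℝ) : ℂ)‖ ≤ 2 * S := by
      rw [Complex.norm_real, Real.norm_eq_abs, abs_of_nonneg (by linarith)]
      linarith
    refine le_trans (htail _ hz) ?_
    rw [hM]
    have : ‖F ((2 * S - j * (S / N) : ℝ) : ℂ)‖
        ≤ ∑ k ∈ range (N + 1), ‖F ((2 * S - k * (S / N) : ℝ) : ℂ)‖ := by
      apply Finset.single_le_sum (f := fun k : ℕ => ‖F ((2 * S - k * (S / N) : ℝ) : ℂ)‖)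
        (fun i _ => norm_nonneg _) (mem_range.mpr (Nat.lt_succ_of_le hj))
    linarith
  have hmain := poly_extrap N Q hQdeg M hnode
  have hQ0 : Q.eval ((2 * N : ℕ) : ℂ) = 1 := by
    rw [hQeval]
    have e1 : ((2 * S : ℝ) : ℂ) - ((S / N : ℝ) : ℂ) * ((2 * N : ℕ) : ℂ) = 0 := by
      push_cast
      have : (N : ℂ) ≠ 0 := by exact_mod_cast hN.ne'
      field_simp
      ring
    rw [e1, hPeval]
    have h2 := hsum 0
    have h3 : F 0 = c 0 := by
      have h4 : HasSum (fun m => c m * (0 : ℂ) ^ m) (c 0 * (0 : ℂ) ^ 0) := by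
        apply hasSum_single 0
        intro m hm
        simp [hm]
      have h5 := h2.unique h4
      simpa using h5
    rw [Finset.sum_eq_single 0]
    · simp [← h3, h0]
    · intro m _ hm
      simp [hm]
    · intro h
      simp at h
  rw [hQ0, norm_one, hM, mul_add] at hmain
  have htailsmall : (8 : ℝ) ^ N * tl ≤ 1 / 8 := by
    rw [htl, hE]
    have hexp : Real.exp (T * R) ≤ 2 ^ N := by
      have h1 : T * R ≤ N * Real.log 2 := by
        have hlog : (0.64 : ℝ) ≤ Real.log 2 := by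
          have := Real.log_two_gt_d9
          linarith
        have h2 : T * R = 50 * T * S * 0.64 := by rw [hR]; ring
        rw [h2]
        have hTS : 0 ≤ 50 * T * S := by positivity
        nlinarith
      calc Real.exp (T * R) ≤ Real.exp (N * Real.log 2) := Real.exp_le_exp.mpr h1
        _ = 2 ^ N := by
          rw [mul_comm, Real.exp_mul, Real.exp_log (by norm_num)]
          norm_num
    have e : (8 : ℝ) ^ N * (2 ^ N * (1 / 16) ^ (N + 1) * 2) = 1 / 8 := by
      have h16 : (8 : ℝ) ^ N * 2 ^ N = 16 ^ N := by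
        rw [← mul_pow]; norm_num
      calc (8 : ℝ) ^ N * (2 ^ N * (1 / 16) ^ (N + 1) * 2)
          = (8 ^ N * 2 ^ N) * ((1 / 16) ^ N) * (2 / 16) := by rw [pow_succ]; ring
        _ = (16 * (1 / 16)) ^ N * (2 / 16) := by rw [h16, ← mul_pow]
        _ = 1 / 8 := by norm_num
    calc (8 : ℝ) ^ N * (Real.exp (T * R) * (1 / 16) ^ (N + 1) * 2)
        ≤ 8 ^ N * (2 ^ N * (1 / 16) ^ (N + 1) * 2) := by
          apply mul_le_mul_of_nonneg_left _ (by positivity)
          apply mul_le_mul_of_nonneg_right _ (by norm_num)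
          apply mul_le_mul_of_nonneg_right hexp (by positivity)
      _ = 1 / 8 := e
  linarith

end Vale.Agent.P367.Gap
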