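import Vale.Agent.P367.Gap.Circuit

namespace Vale.Agent.P367.Gap

open Finset

variable {n : ℕ}

/-- symmetric coupling matrix with zero diagonal -/
noncomputable def Ksym (J : Fin n × Fin n → ℝ) (i j : Fin n) : ℝ :=
  (√(n : ℝ))⁻¹ * (if i < j then J (i, j) else if j < i then J (j, i) else 0)

lemma Ksym_symm (J : Fin n × Fin n → ℝ) (i j : Fin n) : Ksym J i j = Ksym J j i := by
  unfold Ksym
  rcases lt_trichotomy i j with h | h | h
  · simp [h, h.not_gt]
  · simp [h]
  · simp [h, h.not_gt]

lemma Ksym_diag (J : Fin n × Fin n → ℝ) (i : Fin n) : Ksym J i i = 0 := by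
  simp [Ksym]

/-- quadratic form -/
noncomputable def Hq (J : Fin n × Fin n → ℝ) (x : Fin n → ℝ) : ℝ :=
  (√(n : ℝ))⁻¹ * ∑ i, ∑ j, if i < j then J (i, j) * x i * x j else 0

/-- local field -/
noncomputable def fld (J : Fin n × Fin n → ℝ) (x : Fin n → ℝ) (i : Fin n) : ℝ :=
  ∑ j, Ksym J i j * x j

lemma Hq_eq (J : Fin n × Fin n → ℝ) (x : Fin n → ℝ) :
    Hq J x = 1 / 2 * ∑ i, ∑ j, Ksym J i j * x i * x j := by
  have h1 : ∑ i, ∑ j, Ksym J i j * x i * x j
      = (√(n : ℝ))⁻¹ * ∑ i, ∑ j, (if i < j then J (i, j) * x i * x j else 0)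
      + (√(n : ℝ))⁻¹ * ∑ i, ∑ j, (if j < i then J (j, i) * x i * x j else 0) := by
    rw [mul_sum, mul_sum, ← sum_add_distrib]
    refine sum_congr rfl fun i _ => ?_
    rw [mul_sum, mul_sum, ← sum_add_distrib]
    refine sum_congr rfl fun j _ => ?_
    unfold Ksym
    rcases lt_trichotomy i j with h | h | h
    · simp [h, h.not_gt]; ring
    · simp [h]
    · simp [h, h.not_gt]; ring
  have h2 : ∑ i, ∑ j, (if j < i then J (j, i) * x i * x j else 0)
      = ∑ i, ∑ j, (if i < j then J (i, j) * x i * x j else 0) := by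
    rw [sum_comm]
    refine sum_congr rfl fun i _ => sum_congr rfl fun j _ => ?_
    split_ifs
    · ring
    · rfl
  rw [h1, h2, Hq]
  ring

lemma sum_mul_fld (J : Fin n × Fin n → ℝ) (x d : Fin n → ℝ) :
    ∑ i, d i * fld J x i = ∑ i, ∑ j, Ksym J i j * d i * x j := by
  refine sum_congr rfl fun i _ => ?_
  rw [fld, mul_sum]
  refine sum_congr rfl fun j _ => ?_
  ring

lemma Hq_half_fld (J : Fin n × Fin n → ℝ) (x : Fin n → ℝ) :
    Hq J x = 1 / 2 * ∑ i, x i * fld J x i := by
  rw [Hq_eq, sum_mul_fld]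

lemma Hq_add (J : Fin n × Fin n → ℝ) (x d : Fin n → ℝ) :
    Hq J (fun i => x i + d i) = Hq J x + ∑ i, d i * fld J x i + Hq J d := by
  rw [Hq_eq, Hq_eq, Hq_eq, sum_mul_fld]
  have h1 : ∑ i, ∑ j, Ksym J i j * (x i + d i) * (x j + d j)
      = ∑ i, ∑ j, Ksym J i j * x i * x j + ∑ i, ∑ j, Ksym J i j * d i * x j
        + ∑ i, ∑ j, Ksym J i j * x i * d j + ∑ i, ∑ j, Ksym J i j * d i * d j := by
    simp only [← sum_add_distrib]
    refine sum_congr rfl fun i _ => sum_congr rfl fun j _ => ?_
    ring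
  have h2 : ∑ i, ∑ j, Ksym J i j * x i * d j = ∑ i, ∑ j, Ksym J i j * d i * x j := by
    rw [sum_comm]
    refine sum_congr rfl fun i _ => sum_congr rfl fun j _ => ?_
    rw [Ksym_symm]
    ring
  rw [h1, h2]
  ring

lemma Hq_update (J : Fin n × Fin n → ℝ) (x : Fin n → ℝ) (i : Fin n) (t : ℝ) :
    Hq J (Function.update x i t) = Hq J x + (t - x i) * fld J x i := by
  have h0 : Function.update x i t = fun k => x k + Function.update (fun _ => (0 : ℝ)) i (t - x i) k := by
    ext k
    by_cases h : k = i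
    · subst h; simp
    · simp [h]
  rw [h0, Hq_add]
  have h1 : ∑ k, Function.update (fun _ => (0 : ℝ)) i (t - x i) k * fld J x k
      = (t - x i) * fld J x i := by
    rw [sum_eq_single i]
    · simp
    · intro k _ hk; simp [hk]
    · intro h; exact absurd (mem_univ i) h
  have h2 : Hq J (Function.update (fun _ => (0 : ℝ)) i (t - x i)) = 0 := by
    rw [Hq_eq]
    have : ∑ a, ∑ b, Ksym J a b * Function.update (fun _ => (0 : ℝ)) i (t - x i) a
        * Function.update (fun _ => (0 : ℝ)) i (t - x i) b = 0 := by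
      refine sum_eq_zero fun a _ => sum_eq_zero fun b _ => ?_
      by_cases ha : a = i
      · by_cases hb : b = i
        · subst ha; subst hb; rw [Ksym_diag]; ring
        · simp [hb]
      · simp [ha]
    rw [this, mul_zero]
  rw [h1, h2, add_zero]

/-- a multi-affine form on the cube is at most its value at some vertex -/
lemma exists_vertex (J : Fin n × Fin n → ℝ) (x : Fin n → ℝ) (hx : ∀ i, |x i| ≤ 1) :
    ∃ σ : Conf n, Hq J x ≤ Hq J (fun i => spin (σ i)) := by
  have key : ∀ S : Finset (Fin n), ∃ y : Fin n → ℝ, (∀ i, |y i| ≤ 1) ∧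
      (∀ i ∈ S, y i = 1 ∨ y i = -1) ∧ Hq J x ≤ Hq J y := by
    intro S
    induction S using Finset.induction_on with
    | empty => exact ⟨x, hx, by simp, le_rfl⟩
    | insert i S hi ih =>
      obtain ⟨y, hy1, hy2, hy3⟩ := ih
      have hyi := abs_le.1 (hy1 i)
      rcases le_total 0 (fld J y i) with hf | hf
      · refine ⟨Function.update y i 1, ?_, ?_, ?_⟩
        · intro k
          by_cases hk : k = i
          · subst hk; simp
          · simpa [hk] using hy1 k
        · intro k hk
          by_cases hk' : k = i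
          · subst hk'; simp
          · simpa [hk'] using hy2 k ((mem_insert.1 hk).resolve_left hk')
        · rw [Hq_update]
          have : 0 ≤ (1 - y i) * fld J y i := mul_nonneg (by linarith) hf
          linarith
      · refine ⟨Function.update y i (-1), ?_, ?_, ?_⟩
        · intro k
          by_cases hk : k = i
          · subst hk; simp
          · simpa [hk] using hy1 k
        · intro k hk
          by_cases hk' : k = i
          · subst hk'; simp
          · simpa [hk'] using hy2 k ((mem_insert.1 hk).resolve_left hk')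
        · rw [Hq_update]
          have : 0 ≤ (-1 - y i) * fld J y i := mul_nonneg_of_nonpos_of_nonpos (by linarith) hf
          linarith
  obtain ⟨y, _, hy2, hy3⟩ := key univ
  refine ⟨fun i => decide (y i = -1), ?_⟩
  have : (fun i => spin (decide (y i = -1))) = y := by
    ext i
    rcases hy2 i (mem_univ i) with h | h
    · rw [h]; norm_num [spin]
    · rw [h]; norm_num [spin]
  rw [this]
  exact hy3

/-- The SK energy of a configuration. -/
noncomputable def skEq (J : Fin n × Fin n → ℝ) (σ : Conf n) : ℝ :=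
  (√(n : ℝ))⁻¹ * ∑ i, ∑ j, if i < j then J (i, j) * spin (σ i) * spin (σ j) else 0

lemma skEq_eq (J : Fin n × Fin n → ℝ) (σ : Conf n) :
    skEq J σ = Hq J (fun i => spin (σ i)) := rfl

lemma Hq_neg (J : Fin n × Fin n → ℝ) (x : Fin n → ℝ) :
    Hq (fun e => - J e) x = - Hq J x := by
  unfold Hq
  rw [← mul_neg, ← sum_neg_distrib]
  congr 1
  refine sum_congr rfl fun i _ => ?_
  rw [← sum_neg_distrib]
  refine sum_congr rfl fun j _ => ?_
  split_ifs <;> ring

/-- aligned local field -/
noncomputable def afld (J : Fin n × Fin n → ℝ) (σ : Conf n) (i : Fin n) : ℝ :=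
  spin (σ i) * fld J (fun j => spin (σ j)) i

/-- flip lemma -/
theorem flip_gain (J : Fin n × Fin n → ℝ) (σ : Conf n) (δ q : ℝ) (hδ : 0 ≤ δ) (hq0 : 0 ≤ q)
    (hq1 : q ≤ 1) :
    skEq J σ + 2 * q * δ * (univ.filter fun i => afld J σ i < -δ).card
      ≤ (⨆ τ : Conf n, skEq J τ) + 4 * q ^ 2 * ⨆ τ : Conf n, skEq (fun e => - J e) τ := by
  classical
  set S := univ.filter fun i => afld J σ i < -δ with hS
  set x : Fin n → ℝ := fun i => spin (σ i) with hx
  have hx1 : ∀ i, |x i| = 1 := fun i => abs_spin _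
  set m : Fin n → ℝ := fun i => if i ∈ S then x i else 0 with hm
  have hm1 : ∀ i, |m i| ≤ 1 := by
    intro i
    simp only [hm]
    split_ifs
    · exact (hx1 i).le
    · simp
  -- scaling
  have hscale : Hq J (fun i => (-(2 * q)) * m i) = 4 * q ^ 2 * Hq J m := by
    rw [Hq_eq, Hq_eq]
    have : ∑ i, ∑ j, Ksym J i j * (-(2 * q) * m i) * (-(2 * q) * m j)
        = 4 * q ^ 2 * ∑ i, ∑ j, Ksym J i j * m i * m j := by
      rw [mul_sum]
      refine sum_congr rfl fun i _ => ?_
      rw [mul_sum]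
      refine sum_congr rfl fun j _ => ?_
      ring
    rw [this]; ring
  have hadd := Hq_add J x (fun i => (-(2 * q)) * m i)
  rw [hscale] at hadd
  have hlin : ∑ i, (-(2 * q)) * m i * fld J x i ≥ 2 * q * δ * S.card := by
    have h1 : ∑ i, (-(2 * q)) * m i * fld J x i = ∑ i ∈ S, (-(2 * q)) * afld J σ i := by
      rw [← sum_subset (subset_univ S)]
      · refine sum_congr rfl fun i hi => ?_
        simp only [hm, hi, if_true, afld, hx]
        ring
      · intro i _ hi
        simp [hm, hi]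
    rw [h1]
    have h2 : ∑ i ∈ S, (-(2 * q)) * afld J σ i ≥ ∑ _i ∈ S, 2 * q * δ := by
      refine sum_le_sum fun i hi => ?_
      have : afld J σ i < -δ := (mem_filter.1 hi).2
      nlinarith
    rw [sum_const, nsmul_eq_mul] at h2
    linarith
  have hcube : ∀ i, |x i + (-(2 * q)) * m i| ≤ 1 := by
    intro i
    simp only [hm]
    split_ifs
    · have : x i + -(2 * q) * x i = x i * (1 - 2 * q) := by ring
      rw [this, abs_mul, hx1, one_mul, abs_le]
      constructor <;> linarith
    · simp [hx1]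
  obtain ⟨τ, hτ⟩ := exists_vertex J _ hcube
  obtain ⟨τ', hτ'⟩ := exists_vertex (fun e => - J e) m hm1
  have hM : Hq J (fun i => spin (τ i)) ≤ ⨆ τ : Conf n, skEq J τ :=
    le_ciSup (f := fun τ : Conf n => skEq J τ) (Set.finite_range _).bddAbove τ
  have hM' : Hq (fun e => - J e) (fun i => spin (τ' i)) ≤ ⨆ τ : Conf n, skEq (fun e => - J e) τ :=
    le_ciSup (f := fun τ : Conf n => skEq (fun e => - J e) τ) (Set.finite_range _).bddAbove τ'
  rw [Hq_neg] at hτ'
  have h5 : - Hq J m ≤ ⨆ τ : Conf n, skEq (fun e => - J e) τ := hτ'.trans hM'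
  have h6 : -(4 * q ^ 2 * Hq J m) ≤ 4 * q ^ 2 * ⨆ τ : Conf n, skEq (fun e => - J e) τ := by
    have := mul_le_mul_of_nonneg_left h5 (show (0 : ℝ) ≤ 4 * q ^ 2 by positivity)
    linarith
  have h7 : skEq J σ = Hq J x := rfl
  have h8 := hτ.trans hM
  rw [hadd] at h8
  rw [h7]
  linarith

end Vale.Agent.P367.Gap
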