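import Vale.Agent.P367.Gap.Extrap
import Vale.Agent.P367.Gap.Gauss

open MeasureTheory ProbabilityTheory Finset

namespace Vale.Agent.P367.Gap

variable {ι S : Type*} [Fintype ι] [Fintype S]

/-- The standard Gaussian law on `ℝ^ι`. -/
noncomputable abbrev gLaw (ι : Type*) [Fintype ι] : Measure (ι → ℝ) :=
  Measure.pi fun _ => gaussianReal 0 1

lemma sum_norm_sq_le_of_pairing (f : S → ℂ) (c : ℝ)
    (h : ∀ y : S → ℂ, ∑ σ, ‖y σ‖ ^ 2 ≤ 1 → ‖∑ σ, y σ * f σ‖ ≤ c) :
    ∑ σ, ‖f σ‖ ^ 2 ≤ c ^ 2 := by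
  set m : ℝ := ∑ σ, ‖f σ‖ ^ 2 with hm
  have hm0 : 0 ≤ m := Finset.sum_nonneg fun σ _ => by positivity
  rcases hm0.eq_or_lt with h0 | h0
  · rw [← h0]; positivity
  have hsq : 0 < Real.sqrt m := Real.sqrt_pos.mpr h0
  have h1 := h (fun σ => ((Real.sqrt m)⁻¹ : ℝ) * (starRingEnd ℂ) (f σ)) (by
    have : ∀ σ, ‖(((Real.sqrt m)⁻¹ : ℝ) : ℂ) * (starRingEnd ℂ) (f σ)‖ ^ 2
        = m⁻¹ * ‖f σ‖ ^ 2 := by
      intro σ
      rw [norm_mul, mul_pow, Complex.norm_real, Real.norm_eq_abs, sq_abs, inv_pow,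
        Real.sq_sqrt hm0, RCLike.norm_conj]
    simp only [this]
    rw [← Finset.mul_sum, ← hm, inv_mul_cancel₀ h0.ne'])
  have h2 : ∑ σ, (((Real.sqrt m)⁻¹ : ℝ) : ℂ) * (starRingEnd ℂ) (f σ) * f σ
      = ((Real.sqrt m : ℝ) : ℂ) := by
    have : ∀ σ, (((Real.sqrt m)⁻¹ : ℝ) : ℂ) * (starRingEnd ℂ) (f σ) * f σ
        = (((Real.sqrt m)⁻¹ * ‖f σ‖ ^ 2 : ℝ) : ℂ) := by
      intro σ
      rw [mul_assoc, mul_comm ((starRingEnd ℂ) (f σ)), Complex.mul_conj, Complex.normSq_eq_norm_sq]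
      push_cast
      ring
    simp only [this]
    rw [← Complex.ofReal_sum, ← Finset.mul_sum, ← hm]
    congr 1
    rw [inv_mul_eq_div, Real.div_sqrt]
  rw [h2, Complex.norm_real, Real.norm_eq_abs, abs_of_pos hsq] at h1
  calc m = Real.sqrt m ^ 2 := (Real.sq_sqrt hm0).symm
    _ ≤ c ^ 2 := pow_le_pow_left₀ hsq.le h1 2

lemma cs_pairing (y f : S → ℂ) (hy : ∑ σ, ‖y σ‖ ^ 2 ≤ 1) :
    ‖∑ σ, y σ * f σ‖ ≤ Real.sqrt (∑ σ, ‖f σ‖ ^ 2) := by
  calc ‖∑ σ, y σ * f σ‖ ≤ ∑ σ, ‖y σ‖ * ‖f σ‖ := by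
        refine le_trans (norm_sum_le _ _) (le_of_eq ?_)
        simp only [norm_mul]
    _ ≤ Real.sqrt (∑ σ, ‖y σ‖ ^ 2) * Real.sqrt (∑ σ, ‖f σ‖ ^ 2) :=
        Real.sum_mul_le_sqrt_mul_sqrt _ _ _
    _ ≤ 1 * Real.sqrt (∑ σ, ‖f σ‖ ^ 2) := by
        apply mul_le_mul_of_nonneg_right _ (Real.sqrt_nonneg _)
        rw [← Real.sqrt_one]
        exact Real.sqrt_le_sqrt hy
    _ = _ := one_mul _

/-- Scalar inequality used for the exponential moment. -/
lemma exp_split (s t A : ℝ) (hs : 0 < s) (hA : 0 < A) :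
    Real.exp (-(s * t)) ≤ 1 + A * max (-t) 0 + s / (4 * A) * (1 + Real.exp (-(3 * s * t))) := by
  set x : ℝ := max (-t) 0 with hx
  have hx0 : 0 ≤ x := le_max_right _ _
  have h1 : Real.exp (-(s * t)) ≤ Real.exp (s * x) := by
    apply Real.exp_le_exp.mpr
    have : -t ≤ x := le_max_left _ _
    nlinarith
  have h2 : Real.exp (s * x) ≤ 1 + s * x * Real.exp (s * x) := by
    have h := Real.add_one_le_exp (-(s * x))
    have h3 : Real.exp (-(s * x)) * Real.exp (s * x) = 1 := by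
      rw [← Real.exp_add]; simp
    have h4 := Real.exp_pos (s * x)
    nlinarith
  have h3 : s * x * Real.exp (s * x)
      ≤ A * x + s / (4 * A) * Real.exp (3 * (s * x)) := by
    set q : ℝ := s * Real.exp (s * x) with hq
    have hq0 : 0 < q := by positivity
    have e1 : q ≤ A + q ^ 2 / (4 * A) := by
      have : 0 ≤ (A - q / 2) ^ 2 / A := by positivity
      have e2 : (A - q / 2) ^ 2 / A = A + q ^ 2 / (4 * A) - q := by
        field_simp
        ring
      linarith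
    have e3 : s * x ≤ Real.exp (s * x) := by
      have := Real.add_one_le_exp (s * x)
      linarith
    have e4 : Real.exp (3 * (s * x)) = Real.exp (s * x) ^ 3 := by
      rw [← Real.exp_nat_mul]; norm_num
    have e5 : x * (q ^ 2 / (4 * A)) ≤ s / (4 * A) * Real.exp (3 * (s * x)) := by
      rw [e4]
      have e6 : x * (q ^ 2 / (4 * A)) = s / (4 * A) * ((s * x) * Real.exp (s * x) ^ 2) := by
        rw [hq]; ring
      rw [e6]
      apply mul_le_mul_of_nonneg_left _ (by positivity)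
      calc (s * x) * Real.exp (s * x) ^ 2 ≤ Real.exp (s * x) * Real.exp (s * x) ^ 2 := by
            apply mul_le_mul_of_nonneg_right e3 (by positivity)
        _ = Real.exp (s * x) ^ 3 := by ring
    calc s * x * Real.exp (s * x) = x * q := by rw [hq]; ring
      _ ≤ x * (A + q ^ 2 / (4 * A)) := mul_le_mul_of_nonneg_left e1 hx0
      _ = A * x + x * (q ^ 2 / (4 * A)) := by ring
      _ ≤ _ := by linarith
  have h4 : Real.exp (3 * (s * x)) ≤ 1 + Real.exp (-(3 * s * t)) := by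
    rcases le_total (-t) 0 with h | h
    · have : x = 0 := max_eq_right h
      rw [this]
      simp only [mul_zero, Real.exp_zero]
      linarith [Real.exp_pos (-(3 * s * t))]
    · have : x = -t := max_eq_left h
      rw [this]
      have e : 3 * (s * -t) = -(3 * s * t) := by ring
      rw [e]
      linarith [Real.exp_pos (-(3 * s * t))]
  have h5 : s / (4 * A) * Real.exp (3 * (s * x))
      ≤ s / (4 * A) * (1 + Real.exp (-(3 * s * t))) :=
    mul_le_mul_of_nonneg_left h4 (by positivity)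
  linarith

/-- The linear functional `t_σ(J) = ∑_e u_σ(e) J_e`. -/
noncomputable def tt (u : S → ι → ℝ) (σ : S) (J : ι → ℝ) : ℝ := ∑ e, u σ e * J e

lemma measurable_tt (u : S → ι → ℝ) (σ : S) : Measurable (tt u σ) := by
  unfold tt
  fun_prop

lemma norm_sq_le_one {ψ : S → ℂ} (hnorm : ∑ σ, ‖ψ σ‖ ^ 2 = 1) (σ : S) : ‖ψ σ‖ ^ 2 ≤ 1 := by
  rw [← hnorm]
  exact Finset.single_le_sum (f := fun σ => ‖ψ σ‖ ^ 2) (fun i _ => by positivity) (mem_univ σ)

section main

variable (ψ : (ι → ℝ) → S → ℂ) (u : S → ι → ℝ)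

lemma integrable_exp_tt (r : ℝ) (σ : S) :
    Integrable (fun J => Real.exp (-(r * tt u σ J))) (gLaw ι) := by
  have h := integrable_exp_linear (ι := ι) (fun e => -(r * u σ e))
  refine h.congr (Filter.Eventually.of_forall fun J => ?_)
  simp only [tt, Finset.mul_sum, ← Finset.sum_neg_distrib]
  congr 1
  apply Finset.sum_congr rfl
  intro e _
  ring

lemma integrable_weight (hmeas : ∀ σ, Measurable fun J => ψ J σ)
    (hnorm : ∀ J, ∑ σ, ‖ψ J σ‖ ^ 2 = 1) (r : ℝ) (σ : S) :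
    Integrable (fun J => ‖ψ J σ‖ ^ 2 * Real.exp (-(r * tt u σ J))) (gLaw ι) := by
  refine (integrable_exp_tt u r σ).mono' ?_ (Filter.Eventually.of_forall fun J => ?_)
  · apply Measurable.aestronglyMeasurable
    have h1 := measurable_tt u σ
    have h2 := hmeas σ
    fun_prop
  · rw [norm_mul, Real.norm_eq_abs, Real.norm_eq_abs, abs_of_nonneg (by positivity),
      abs_of_pos (Real.exp_pos _)]
    calc ‖ψ J σ‖ ^ 2 * Real.exp (-(r * tt u σ J))
        ≤ 1 * Real.exp (-(r * tt u σ J)) :=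
          mul_le_mul_of_nonneg_right (norm_sq_le_one (hnorm J) σ) (Real.exp_pos _).le
      _ = _ := one_mul _

lemma integrable_mis (hmeas : ∀ σ, Measurable fun J => ψ J σ)
    (hnorm : ∀ J, ∑ σ, ‖ψ J σ‖ ^ 2 = 1) (σ : S) :
    Integrable (fun J => ‖ψ J σ‖ ^ 2 * max (-(tt u σ J)) 0) (gLaw ι) := by
  refine (integrable_exp_tt u 1 σ).mono' ?_ (Filter.Eventually.of_forall fun J => ?_)
  · apply Measurable.aestronglyMeasurable
    have h1 := measurable_tt u σ
    have h2 := hmeas σ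
    fun_prop
  · have h0 : 0 ≤ max (-(tt u σ J)) 0 := le_max_right _ _
    rw [norm_mul, Real.norm_eq_abs, Real.norm_eq_abs, abs_of_nonneg (by positivity),
      abs_of_nonneg h0]
    have h1 : max (-(tt u σ J)) 0 ≤ Real.exp (-(1 * tt u σ J)) := by
      apply max_le
      · have := Real.add_one_le_exp (-(1 * tt u σ J))
        linarith
      · exact (Real.exp_pos _).le
    calc ‖ψ J σ‖ ^ 2 * max (-(tt u σ J)) 0 ≤ 1 * max (-(tt u σ J)) 0 :=
          mul_le_mul_of_nonneg_right (norm_sq_le_one (hnorm J) σ) h0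
      _ ≤ _ := by rw [one_mul]; exact h1

/-- Weighted exponential moment. -/
noncomputable def Emom (r : ℝ) : ℝ :=
  ∫ J, ∑ σ, ‖ψ J σ‖ ^ 2 * Real.exp (-(r * tt u σ J)) ∂(gLaw ι)

/-- Squared norm of the shifted amplitudes. -/
noncomputable def Nsh (r : ℝ) : ℝ :=
  ∫ J, ∑ σ, ‖ψ (J - r • u σ) σ‖ ^ 2 ∂(gLaw ι)

/-- Mean misalignment. -/
noncomputable def Dmis : ℝ :=
  ∫ J, ∑ σ, ‖ψ J σ‖ ^ 2 * max (-(tt u σ J)) 0 ∂(gLaw ι)

variable {ψ u}

lemma Nsh_eq {κ : ℝ} (hu : ∀ σ, ∑ e, (u σ e) ^ 2 = κ) (hmeas : ∀ σ, Measurable fun J => ψ J σ)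
    (hnorm : ∀ J, ∑ σ, ‖ψ J σ‖ ^ 2 = 1) (r : ℝ) :
    Nsh ψ u r = Real.exp (-(κ * r ^ 2 / 2)) * Emom ψ u r := by
  unfold Nsh Emom
  rw [integral_finsetSum, integral_finsetSum, Finset.mul_sum]
  · apply Finset.sum_congr rfl
    intro σ _
    have h := integral_shift (r • u σ) (fun J => ‖ψ J σ‖ ^ 2)
    rw [h, ← integral_const_mul]
    apply integral_congr_ae
    refine Filter.Eventually.of_forall fun J => ?_
    have e1 : ∑ i, (r • u σ) i * J i = r * tt u σ J := by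
      simp only [tt, Finset.mul_sum, Pi.smul_apply, smul_eq_mul]
      apply Finset.sum_congr rfl
      intro e _
      ring
    have e2 : ∑ i, (r • u σ) i ^ 2 = κ * r ^ 2 := by
      rw [← hu σ, Finset.sum_mul]
      apply Finset.sum_congr rfl
      intro e _
      simp only [Pi.smul_apply, smul_eq_mul]
      ring
    simp only [e1, e2]
    rw [show -(r * tt u σ J) - κ * r ^ 2 / 2 = -(κ * r ^ 2 / 2) + -(r * tt u σ J) by ring,
      Real.exp_add]
    ring
  · intro σ _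
    exact integrable_weight ψ u hmeas hnorm r σ
  · intro σ _
    refine (integrable_const (1 : ℝ)).mono' ?_ (Filter.Eventually.of_forall fun J => ?_)
    · apply Measurable.aestronglyMeasurable
      have h2 : Measurable fun J : ι → ℝ => ψ (J - r • u σ) σ := by
        exact (hmeas σ).comp (measurable_id.sub_const _)
      exact h2.norm.pow_const 2
    · rw [Real.norm_eq_abs, abs_of_nonneg (by positivity)]
      exact norm_sq_le_one (hnorm _) σ

lemma Nsh_le {T : ℝ} (hmeas : ∀ σ, Measurable fun J => ψ J σ)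
    (hsh : ∀ (J : ι → ℝ) (r : ℝ), ∑ σ, ‖ψ (J - r • u σ) σ‖ ^ 2 ≤ Real.exp (T * |r|) ^ 2)
    (r : ℝ) : Nsh ψ u r ≤ Real.exp (2 * T * |r|) := by
  unfold Nsh
  have e : Real.exp (2 * T * |r|) = Real.exp (T * |r|) ^ 2 := by
    rw [← Real.exp_nat_mul]
    congr 1
    push_cast
    ring
  rw [e]
  have h1 : ∫ J, ∑ σ, ‖ψ (J - r • u σ) σ‖ ^ 2 ∂(gLaw ι)
      ≤ ∫ _, Real.exp (T * |r|) ^ 2 ∂(gLaw ι) := by
    apply integral_mono
    · refine (integrable_const (Real.exp (T * |r|) ^ 2)).mono' ?_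
        (Filter.Eventually.of_forall fun J => ?_)
      · apply Measurable.aestronglyMeasurable
        apply Finset.measurable_fun_sum
        intro σ _
        have h2 : Measurable fun J : ι → ℝ => ψ (J - r • u σ) σ := by
          exact (hmeas σ).comp (measurable_id.sub_const _)
        exact h2.norm.pow_const 2
      · rw [Real.norm_eq_abs, abs_of_nonneg (Finset.sum_nonneg fun σ _ => by positivity)]
        exact hsh J r
    · exact integrable_const _
    · intro J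
      exact hsh J r
  simpa using h1

lemma Emom_le {κ T : ℝ} (hκ1 : κ ≤ 1) (hu : ∀ σ, ∑ e, (u σ e) ^ 2 = κ)
    (hmeas : ∀ σ, Measurable fun J => ψ J σ)
    (hnorm : ∀ J, ∑ σ, ‖ψ J σ‖ ^ 2 = 1)
    (hsh : ∀ (J : ι → ℝ) (r : ℝ), ∑ σ, ‖ψ (J - r • u σ) σ‖ ^ 2 ≤ Real.exp (T * |r|) ^ 2)
    (r : ℝ) : Emom ψ u r ≤ Real.exp (r ^ 2 / 2 + 2 * T * |r|) := by
  have h1 := Nsh_eq hu hmeas hnorm r
  have h2 := Nsh_le hmeas hsh r
  have h3 : Emom ψ u r = Real.exp (κ * r ^ 2 / 2) * Nsh ψ u r := by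
    rw [h1, ← mul_assoc, ← Real.exp_add]
    simp
  rw [h3, Real.exp_add]
  apply mul_le_mul _ h2 _ (Real.exp_pos _).le
  · apply Real.exp_le_exp.mpr
    have : 0 ≤ r ^ 2 := sq_nonneg r
    nlinarith
  · unfold Nsh
    exact integral_nonneg fun J => Finset.sum_nonneg fun σ _ => by positivity

lemma Emom_small {κ T : ℝ} (hκ1 : κ ≤ 1) (hu : ∀ σ, ∑ e, (u σ e) ^ 2 = κ)
    (hmeas : ∀ σ, Measurable fun J => ψ J σ)
    (hnorm : ∀ J, ∑ σ, ‖ψ J σ‖ ^ 2 = 1)
    (hT : 0 ≤ T)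
    (hsh : ∀ (J : ι → ℝ) (r : ℝ), ∑ σ, ‖ψ (J - r • u σ) σ‖ ^ 2 ≤ Real.exp (T * |r|) ^ 2)
    (s : ℝ) (hs : 0 < s)
    (hD : s * Real.exp (9 * s ^ 2 / 2 + 6 * T * s) * Dmis ψ u ≤ 1 / 2) :
    Emom ψ u s ≤ 2 := by
  set Y : ℝ := Real.exp (9 * s ^ 2 / 2 + 6 * T * s) with hY
  have hY1 : 1 ≤ Y := by
    rw [hY]
    apply Real.one_le_exp
    positivity
  set A : ℝ := s * Y with hA
  have hA0 : 0 < A := by positivity
  have h3 : Emom ψ u (3 * s) ≤ Y := by
    have h := Emom_le hκ1 hu hmeas hnorm hsh (3 * s)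
    have e : (3 * s) ^ 2 / 2 + 2 * T * |3 * s| = 9 * s ^ 2 / 2 + 6 * T * s := by
      rw [abs_of_pos (by positivity)]
      ring
    rwa [e] at h
  have h4 : Emom ψ u s ≤ 1 + A * Dmis ψ u + s / (4 * A) * (1 + Emom ψ u (3 * s)) := by
    have i1 : Integrable (fun J => ∑ σ, ‖ψ J σ‖ ^ 2 * max (-(tt u σ J)) 0) (gLaw ι) :=
      integrable_finsetSum _ fun σ _ => integrable_mis ψ u hmeas hnorm σ
    have i2 : Integrable (fun J => ∑ σ, ‖ψ J σ‖ ^ 2 * Real.exp (-(3 * s * tt u σ J)))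
        (gLaw ι) := integrable_finsetSum _ fun σ _ => integrable_weight ψ u hmeas hnorm _ σ
    have e : 1 + A * Dmis ψ u + s / (4 * A) * (1 + Emom ψ u (3 * s))
        = ∫ J, (1 + A * (∑ σ, ‖ψ J σ‖ ^ 2 * max (-(tt u σ J)) 0)
          + s / (4 * A) * (1 + ∑ σ, ‖ψ J σ‖ ^ 2 * Real.exp (-(3 * s * tt u σ J)))) ∂(gLaw ι) := by
      unfold Dmis Emom
      rw [integral_add, integral_add, integral_const_mul, integral_const_mul, integral_add]
      · simp
      · exact integrable_const _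
      · exact i2
      · exact integrable_const _
      · exact i1.const_mul _
      · exact (integrable_const _).add (i1.const_mul _)
      · exact ((integrable_const _).add i2).const_mul _
    rw [e]
    unfold Emom
    apply integral_mono
    · exact integrable_finsetSum _ fun σ _ => integrable_weight ψ u hmeas hnorm _ σ
    · exact ((integrable_const _).add (i1.const_mul _)).add
        (((integrable_const _).add i2).const_mul _)
    · intro J
      have h1 : ∀ σ, ‖ψ J σ‖ ^ 2 * Real.exp (-(s * tt u σ J))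
          ≤ ‖ψ J σ‖ ^ 2 + A * (‖ψ J σ‖ ^ 2 * max (-(tt u σ J)) 0)
            + s / (4 * A) * (‖ψ J σ‖ ^ 2 + ‖ψ J σ‖ ^ 2 * Real.exp (-(3 * s * tt u σ J))) := by
        intro σ
        have := mul_le_mul_of_nonneg_left (exp_split s (tt u σ J) A hs hA0)
          (show 0 ≤ ‖ψ J σ‖ ^ 2 by positivity)
        linarith
      calc ∑ σ, ‖ψ J σ‖ ^ 2 * Real.exp (-(s * tt u σ J))
          ≤ ∑ σ, (‖ψ J σ‖ ^ 2 + A * (‖ψ J σ‖ ^ 2 * max (-(tt u σ J)) 0)
            + s / (4 * A) * (‖ψ J σ‖ ^ 2 + ‖ψ J σ‖ ^ 2 * Real.exp (-(3 * s * tt u σ J)))) :=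
            Finset.sum_le_sum fun σ _ => h1 σ
        _ = 1 + A * (∑ σ, ‖ψ J σ‖ ^ 2 * max (-(tt u σ J)) 0)
          + s / (4 * A) * (1 + ∑ σ, ‖ψ J σ‖ ^ 2 * Real.exp (-(3 * s * tt u σ J))) := by
            rw [Finset.sum_add_distrib, Finset.sum_add_distrib, ← Finset.mul_sum,
              ← Finset.mul_sum, Finset.sum_add_distrib, hnorm J]
  have h5 : s / (4 * A) * (1 + Emom ψ u (3 * s)) ≤ 1 / 2 := by
    have e1 : s / (4 * A) = 1 / (4 * Y) := by
      rw [hA]; field_simp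
    rw [e1]
    calc 1 / (4 * Y) * (1 + Emom ψ u (3 * s)) ≤ 1 / (4 * Y) * (Y + Y) := by
          apply mul_le_mul_of_nonneg_left _ (by positivity)
          linarith
      _ = 1 / 2 := by field_simp; ring
  linarith

/-- **Misalignment lemma.** -/
theorem Dmis_lower {κ T : ℝ} (hκ : 1 / 2 ≤ κ) (hκ1 : κ ≤ 1)
    (hu : ∀ σ, ∑ e, (u σ e) ^ 2 = κ)
    (hmeas : ∀ σ, Measurable fun J => ψ J σ)
    (hnorm : ∀ J, ∑ σ, ‖ψ J σ‖ ^ 2 = 1) (hT : 0 ≤ T)
    (hG : ∀ J : ι → ℝ, ∃ G : ℂ → S → ℂ, (∀ σ, Differentiable ℂ fun z => G z σ) ∧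
      (∀ (r : ℝ) (σ : S), G (r : ℂ) σ = ψ (J - r • u σ) σ) ∧
      (∀ (z : ℂ) (y : S → ℂ), ∑ σ, ‖y σ‖ ^ 2 ≤ 1 → ‖∑ σ, y σ * G z σ‖ ≤ Real.exp (T * ‖z‖))) :
    Real.exp (-(18 * (1200 * (1 + T)) ^ 2 + 12 * T * (1200 * (1 + T)))) / (4 * (1200 * (1 + T)))
      ≤ Dmis ψ u := by
  by_contra hcon
  rw [not_le] at hcon
  set B : ℝ := 1200 * (1 + T) with hB
  have hB0 : 0 < B := by positivity
  have hB1 : 1200 ≤ B := by rw [hB]; linarith
  have hD0 : 0 ≤ Dmis ψ u := by
    unfold Dmis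
    exact integral_nonneg fun J => Finset.sum_nonneg fun σ _ =>
      mul_nonneg (by positivity) (le_max_right _ _)
  have hsh : ∀ (J : ι → ℝ) (r : ℝ),
      ∑ σ, ‖ψ (J - r • u σ) σ‖ ^ 2 ≤ Real.exp (T * |r|) ^ 2 := by
    intro J r
    obtain ⟨G, _, hG2, hG3⟩ := hG J
    have := sum_norm_sq_le_of_pairing (G (r : ℂ)) (Real.exp (T * |r|)) (by
      intro y hy
      have := hG3 (r : ℂ) y hy
      rwa [Complex.norm_real, Real.norm_eq_abs] at this)
    simpa only [hG2] using this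
  -- exponential decay of the shifted norm
  have hdecay : ∀ s : ℝ, B ≤ s → s ≤ 2 * B → Nsh ψ u s ≤ 2 * Real.exp (-(B ^ 2 / 4)) := by
    intro s hs1 hs2
    have hs0 : 0 < s := lt_of_lt_of_le hB0 hs1
    have hE : Emom ψ u s ≤ 2 := by
      apply Emom_small hκ1 hu hmeas hnorm hT hsh s hs0
      have h1 : s * Real.exp (9 * s ^ 2 / 2 + 6 * T * s)
          ≤ (2 * B) * Real.exp (18 * B ^ 2 + 12 * T * B) := by
        apply mul_le_mul hs2 _ (Real.exp_pos _).le (by positivity)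
        apply Real.exp_le_exp.mpr
        have : s ^ 2 ≤ (2 * B) ^ 2 := pow_le_pow_left₀ hs0.le hs2 2
        nlinarith
      calc s * Real.exp (9 * s ^ 2 / 2 + 6 * T * s) * Dmis ψ u
          ≤ (2 * B) * Real.exp (18 * B ^ 2 + 12 * T * B)
            * (Real.exp (-(18 * B ^ 2 + 12 * T * B)) / (4 * B)) := by
            apply mul_le_mul h1 hcon.le hD0 (by positivity)
        _ = (Real.exp (18 * B ^ 2 + 12 * T * B) * Real.exp (-(18 * B ^ 2 + 12 * T * B))) / 2 := by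
            field_simp
            ring
        _ = 1 / 2 := by rw [← Real.exp_add]; simp
    rw [Nsh_eq hu hmeas hnorm s]
    calc Real.exp (-(κ * s ^ 2 / 2)) * Emom ψ u s
        ≤ Real.exp (-(B ^ 2 / 4)) * 2 := by
          apply mul_le_mul _ hE _ (Real.exp_pos _).le
          · apply Real.exp_le_exp.mpr
            have : B ^ 2 ≤ s ^ 2 := pow_le_pow_left₀ hB0.le hs1 2
            nlinarith
          · unfold Emom
            exact integral_nonneg fun J => Finset.sum_nonneg fun σ _ => by positivity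
      _ = _ := by ring
  -- number of nodes
  obtain ⟨N, hN1, hN2, hN0⟩ : ∃ N : ℕ, 50 * T * B ≤ N ∧ (N : ℝ) ≤ 50 * T * B + 2 ∧ 0 < N := by
    refine ⟨⌈50 * T * B⌉₊ + 1, ?_, ?_, Nat.succ_pos _⟩
    · push_cast
      have := Nat.le_ceil (50 * T * B)
      linarith
    · push_cast
      have := Nat.ceil_lt_add_one (show 0 ≤ 50 * T * B by positivity)
      linarith
  have hNr : (0 : ℝ) < N := by exact_mod_cast hN0
  set x : ℕ → ℝ := fun k => 2 * B - k * (B / N) with hx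
  have hxr : ∀ k ∈ range (N + 1), B ≤ x k ∧ x k ≤ 2 * B := by
    intro k hk
    have hkN : (k : ℝ) ≤ N := by exact_mod_cast Nat.lt_succ_iff.mp (mem_range.mp hk)
    have h1 : (k : ℝ) * (B / N) ≤ B := by
      rw [mul_div_assoc', div_le_iff₀ hNr, mul_comm]
      exact mul_le_mul_of_nonneg_left hkN hB0.le
    have h2 : 0 ≤ (k : ℝ) * (B / N) := by positivity
    constructor
    · simp only [hx]; linarith
    · simp only [hx]; linarith
  have hpt : ∀ J : ι → ℝ, (1 / 2 : ℝ) ≤ 8 ^ N *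
      ∑ k ∈ range (N + 1), Real.sqrt (∑ σ, ‖ψ (J - x k • u σ) σ‖ ^ 2) := by
    intro J
    obtain ⟨G, hG1, hG2, hG3⟩ := hG J
    have hy : ∑ σ, ‖(starRingEnd ℂ) (ψ J σ)‖ ^ 2 ≤ 1 := by
      simp only [RCLike.norm_conj]
      exact (hnorm J).le
    have h1 := entire_extrap T B hT hB0 N hN0 hN1
      (fun z => ∑ σ, (starRingEnd ℂ) (ψ J σ) * G z σ)
      (by
        apply Differentiable.fun_sum
        intro σ _
        exact (hG1 σ).const_mul _)
      (by
        intro z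
        exact hG3 z _ hy)
      (by
        have : ∀ σ, G 0 σ = ψ J σ := by
          intro σ
          have := hG2 0 σ
          simpa using this
        simp only [this]
        have e : ∀ σ, (starRingEnd ℂ) (ψ J σ) * ψ J σ = ((‖ψ J σ‖ ^ 2 : ℝ) : ℂ) := by
          intro σ
          rw [mul_comm, Complex.mul_conj, Complex.normSq_eq_norm_sq]
        simp only [e]
        rw [← Complex.ofReal_sum, hnorm J]
        simp)
    refine le_trans h1 ?_
    apply mul_le_mul_of_nonneg_left _ (by positivity)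
    apply Finset.sum_le_sum
    intro k _
    have h2 := cs_pairing (fun σ => (starRingEnd ℂ) (ψ J σ)) (G ((x k : ℝ) : ℂ)) hy
    simpa only [hG2] using h2
  set θ : ℝ := 2 * Real.exp (-(B ^ 2 / 8)) with hθ
  have hθ0 : 0 < θ := by positivity
  have hθ2 : θ ^ 2 = 4 * Real.exp (-(B ^ 2 / 4)) := by
    rw [hθ, mul_pow, ← Real.exp_nat_mul]
    norm_num
    ring_nf
  have hpt2 : ∀ J : ι → ℝ, (1 / 2 : ℝ) ≤ 8 ^ N *
      ∑ k ∈ range (N + 1), ((∑ σ, ‖ψ (J - x k • u σ) σ‖ ^ 2) / (2 * θ) + θ / 2) := by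
    intro J
    refine le_trans (hpt J) ?_
    apply mul_le_mul_of_nonneg_left _ (by positivity)
    apply Finset.sum_le_sum
    intro k _
    set m := ∑ σ, ‖ψ (J - x k • u σ) σ‖ ^ 2 with hm
    have hm0 : 0 ≤ m := Finset.sum_nonneg fun σ _ => by positivity
    have e1 : Real.sqrt m ^ 2 = m := Real.sq_sqrt hm0
    have e2 : 0 ≤ (Real.sqrt m - θ) ^ 2 / (2 * θ) := by positivity
    have e3 : (Real.sqrt m - θ) ^ 2 / (2 * θ) = m / (2 * θ) + θ / 2 - Real.sqrt m := by
      have : (Real.sqrt m - θ) ^ 2 = m - 2 * θ * Real.sqrt m + θ ^ 2 := by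
        rw [sub_sq, e1]; ring
      rw [this]
      field_simp
      ring
    linarith
  have hNi : ∀ k, Integrable (fun J => ∑ σ, ‖ψ (J - x k • u σ) σ‖ ^ 2) (gLaw ι) := by
    intro k
    refine (integrable_const (Real.exp (T * |x k|) ^ 2)).mono' ?_
      (Filter.Eventually.of_forall fun J => ?_)
    · apply Measurable.aestronglyMeasurable
      apply Finset.measurable_fun_sum
      intro σ _
      have h2 : Measurable fun J : ι → ℝ => ψ (J - x k • u σ) σ := by
        exact (hmeas σ).comp (measurable_id.sub_const _)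
      exact h2.norm.pow_const 2
    · rw [Real.norm_eq_abs, abs_of_nonneg (Finset.sum_nonneg fun σ _ => by positivity)]
      exact hsh J _
  have hint : (1 / 2 : ℝ) ≤ 8 ^ N * ∑ k ∈ range (N + 1), (Nsh ψ u (x k) / (2 * θ) + θ / 2) := by
    have h1 : ∫ _ : ι → ℝ, (1 / 2 : ℝ) ∂(gLaw ι) ≤ ∫ J, (8 ^ N *
      ∑ k ∈ range (N + 1), ((∑ σ, ‖ψ (J - x k • u σ) σ‖ ^ 2) / (2 * θ) + θ / 2)) ∂(gLaw ι) := by
      apply integral_mono (integrable_const _)
      · apply Integrable.const_mul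
        apply integrable_finsetSum
        intro k _
        exact ((hNi k).div_const _).add (integrable_const _)
      · intro J
        exact hpt2 J
    rw [integral_const_mul, integral_finsetSum] at h1
    · have h2 : ∀ k, ∫ J, ((∑ σ, ‖ψ (J - x k • u σ) σ‖ ^ 2) / (2 * θ) + θ / 2) ∂(gLaw ι)
          = Nsh ψ u (x k) / (2 * θ) + θ / 2 := by
        intro k
        rw [integral_add ((hNi k).div_const _) (integrable_const _), integral_div]
        simp [Nsh]
      simp only [h2] at h1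
      simpa using h1
    · intro k _
      exact ((hNi k).div_const _).add (integrable_const _)
  have hfin : ∀ k ∈ range (N + 1), Nsh ψ u (x k) / (2 * θ) + θ / 2 ≤ θ := by
    intro k hk
    have h1 := hdecay (x k) (hxr k hk).1 (hxr k hk).2
    have h2 : Nsh ψ u (x k) ≤ θ ^ 2 := by
      rw [hθ2]
      have := Real.exp_pos (-(B ^ 2 / 4))
      linarith
    have h3 : Nsh ψ u (x k) / (2 * θ) ≤ θ / 2 := by
      rw [div_le_iff₀ (by positivity)]
      calc Nsh ψ u (x k) ≤ θ ^ 2 := h2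
        _ = θ / 2 * (2 * θ) := by ring
    linarith
  have h6 : (1 / 2 : ℝ) ≤ 8 ^ N * ((N + 1) * θ) := by
    refine le_trans hint ?_
    apply mul_le_mul_of_nonneg_left _ (by positivity)
    calc ∑ k ∈ range (N + 1), (Nsh ψ u (x k) / (2 * θ) + θ / 2)
        ≤ ∑ k ∈ range (N + 1), θ := Finset.sum_le_sum hfin
      _ = (N + 1) * θ := by simp
  have h7 : (N : ℝ) + 1 ≤ 2 ^ N := by
    have := Nat.lt_two_pow_self (n := N)
    exact_mod_cast this
  have h8 : (1 / 2 : ℝ) ≤ 16 ^ N * θ := by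
    refine le_trans h6 ?_
    calc (8 : ℝ) ^ N * ((N + 1) * θ) ≤ 8 ^ N * (2 ^ N * θ) := by
          apply mul_le_mul_of_nonneg_left _ (by positivity)
          exact mul_le_mul_of_nonneg_right h7 hθ0.le
      _ = 16 ^ N * θ := by rw [← mul_assoc, ← mul_pow]; norm_num
  have h9 : (16 : ℝ) ^ N ≤ Real.exp (B ^ 2 / 8 - 2) := by
    have hl : Real.log 16 ≤ 2.8 := by
      have : Real.log 16 = 4 * Real.log 2 := by
        rw [show (16 : ℝ) = 2 ^ 4 by norm_num, Real.log_pow]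
        norm_num
      rw [this]
      have := Real.log_two_lt_d9
      linarith
    have e1 : (16 : ℝ) ^ N = Real.exp (N * Real.log 16) := by
      rw [mul_comm, Real.exp_mul, Real.exp_log (by norm_num)]
      norm_num
    rw [e1]
    apply Real.exp_le_exp.mpr
    have e2 : (N : ℝ) * Real.log 16 ≤ (50 * T * B + 2) * 2.8 := by
      apply mul_le_mul hN2 hl (Real.log_nonneg (by norm_num)) (by positivity)
    have e3 : B ^ 2 / 8 = 150 * T * B + 150 * B := by
      rw [hB]; ring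
    have e4 : 0 ≤ T * B := by positivity
    rw [e3]
    nlinarith
  have h10 : (16 : ℝ) ^ N * θ ≤ 2 * Real.exp (-2) := by
    calc (16 : ℝ) ^ N * θ ≤ Real.exp (B ^ 2 / 8 - 2) * θ :=
          mul_le_mul_of_nonneg_right h9 hθ0.le
      _ = 2 * (Real.exp (B ^ 2 / 8 - 2) * Real.exp (-(B ^ 2 / 8))) := by rw [hθ]; ring
      _ = 2 * Real.exp (-2) := by
          rw [← Real.exp_add]
          congr 2
          ring
  have h11 : Real.exp (-2) ≤ 1 / 5 := by
    have h1 : Real.exp (-2) = (Real.exp 1)⁻¹ ^ 2 := by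
      rw [← Real.exp_neg, ← Real.exp_nat_mul]
      norm_num
    rw [h1]
    have h2 := Real.exp_one_gt_d9
    have h3 : (Real.exp 1)⁻¹ ≤ (2.7)⁻¹ := by
      apply inv_anti₀ (by norm_num)
      linarith
    calc (Real.exp 1)⁻¹ ^ 2 ≤ ((2.7 : ℝ)⁻¹) ^ 2 := by
          apply pow_le_pow_left₀ (by positivity) h3
      _ ≤ 1 / 5 := by norm_num
  linarith

end main

end Vale.Agent.P367.Gap
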