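import Vale.Agent.P367.Gap.Circuit
import Vale.Agent.P367.Gap.Flip
import Vale.Agent.P367.Gap.Misalign

open MeasureTheory ProbabilityTheory Finset Matrix

namespace Vale.Agent.P367.Gap

variable {n : ℕ}

/-- Pair character. -/
noncomputable def chi (s : Conf n) (e : Pair n) : ℝ := spin (s e.1.1) * spin (s e.1.2)

/-- Incidence indicator. -/
noncomputable def inc (i : Fin n) (e : Pair n) : ℝ := if e.1.1 = i ∨ e.1.2 = i then 1 else 0

lemma sum_pair (f : Fin n → Fin n → ℝ) :
    ∑ e : Pair n, f e.1.1 e.1.2 = ∑ a, ∑ b, if a < b then f a b else 0 := by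
  rw [← Fintype.sum_prod_type' (f := fun a b => if a < b then f a b else 0), ← Finset.sum_filter]
  exact (Finset.sum_subtype (univ.filter (fun e : Fin n × Fin n => e.1 < e.2)) (by simp)
    (fun e => f e.1 e.2)).symm

lemma sum_inc (g : Fin n → Fin n → ℝ) (hg : ∀ a b, g a b = g b a) (i : Fin n) :
    ∑ e : Pair n, inc i e * g e.1.1 e.1.2 = ∑ j ∈ univ.erase i, g i j := by
  have h1 := sum_pair (n := n) (fun a b => (if a = i ∨ b = i then (1 : ℝ) else 0) * g a b)
  simp only [inc]
  rw [h1]
  have h2 : ∀ a b : Fin n, (if a < b then (if a = i ∨ b = i then (1 : ℝ) else 0) * g a b else 0)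
      = (if a = i then (if i < b then g i b else 0) else 0)
        + (if b = i then (if a < i then g i a else 0) else 0) := by
    intro a b
    by_cases ha : a = i
    · subst ha
      by_cases hb : b = a
      · subst hb; simp
      · simp [hb]
    · by_cases hb : b = i
      · subst hb
        simp [ha, hg a b]
      · simp [ha, hb]
  simp only [h2, Finset.sum_add_distrib]
  have h3 : ∑ a, ∑ b, (if a = i then (if i < b then g i b else 0) else 0)
      = ∑ b, (if i < b then g i b else 0) := by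
    rw [Finset.sum_eq_single i]
    · simp
    · intro a _ ha; simp [ha]
    · intro h; exact absurd (mem_univ i) h
  have h4 : ∑ a, ∑ b, (if b = i then (if a < i then g i a else 0) else 0)
      = ∑ a, (if a < i then g i a else 0) := by
    apply Finset.sum_congr rfl
    intro a _
    simp
  rw [h3, h4, ← Finset.sum_add_distrib]
  rw [← Finset.sum_filter_add_sum_filter_not univ (fun j => j ≠ i)]
  have h5 : ∑ x ∈ univ.filter (fun j => ¬ j ≠ i), ((if i < x then g i x else 0)
      + (if x < i then g i x else 0)) = 0 := by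
    apply Finset.sum_eq_zero
    intro x hx
    have : x = i := by simpa using hx
    subst this
    simp
  rw [h5, add_zero]
  have h6 : univ.filter (fun j : Fin n => j ≠ i) = univ.erase i := by
    ext j; simp
  rw [h6]
  apply Finset.sum_congr rfl
  intro j hj
  have hj' : j ≠ i := (Finset.mem_erase.mp hj).1
  rcases lt_or_gt_of_ne hj' with h | h
  · simp [h, h.not_gt]
  · simp [h, h.not_gt]

/-- The row direction attached to a configuration. -/
noncomputable def uvec (i : Fin n) (s : Conf n) (e : Pair n) : ℝ :=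
  (Real.sqrt n)⁻¹ * (inc i e * chi s e)

lemma inv_sqrt_mul (n : ℕ) : (Real.sqrt n)⁻¹ * (Real.sqrt n)⁻¹ = ((n : ℝ))⁻¹ := by
  rw [← mul_inv, Real.mul_self_sqrt (Nat.cast_nonneg n)]

lemma chi_sq (s : Conf n) (e : Pair n) : chi s e * chi s e = 1 := by
  unfold chi
  rw [mul_mul_mul_comm, spin_sq, spin_sq, one_mul]

lemma inc_sq (i : Fin n) (e : Pair n) : inc i e * inc i e = inc i e := by
  unfold inc
  split_ifs <;> simp

lemma skEnergy_shift (J : Pair n → ℝ) (r : ℝ) (i : Fin n) (s z : Conf n) :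
    skEnergy (J - r • uvec i s) z = skEnergy J z - r * Rov i s z := by
  have h := sum_inc (n := n)
    (fun a b => (spin (s a) * spin (s b)) * (spin (z a) * spin (z b)))
    (fun a b => by ring) i
  unfold Rov
  rw [← h]
  unfold skEnergy uvec
  simp only [Pi.sub_apply, Pi.smul_apply, smul_eq_mul, sub_mul, Finset.sum_sub_distrib, mul_sub]
  congr 1
  rw [← inv_sqrt_mul, mul_assoc, Finset.mul_sum, Finset.mul_sum, Finset.mul_sum, Finset.mul_sum]
  apply Finset.sum_congr rfl
  intro e _
  unfold chi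
  ring

lemma uvec_sq (hn : 0 < n) (i : Fin n) (s : Conf n) :
    ∑ e, (uvec i s e) ^ 2 = 1 - (n : ℝ)⁻¹ := by
  have h := sum_inc (n := n) (fun _ _ => (1 : ℝ)) (fun a b => rfl) i
  have h1 : ∀ e : Pair n, (uvec i s e) ^ 2 = (n : ℝ)⁻¹ * (inc i e * 1) := by
    intro e
    unfold uvec
    calc ((Real.sqrt n)⁻¹ * (inc i e * chi s e)) ^ 2
        = ((Real.sqrt n)⁻¹ * (Real.sqrt n)⁻¹) * ((inc i e * inc i e) * (chi s e * chi s e)) := by
          ring
      _ = _ := by rw [inv_sqrt_mul, inc_sq, chi_sq]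
  simp only [h1]
  rw [← Finset.mul_sum, h]
  have hn' : (n : ℝ) ≠ 0 := by exact_mod_cast hn.ne'
  rw [Finset.sum_const, Finset.card_erase_of_mem (mem_univ i), Finset.card_univ, Fintype.card_fin,
    nsmul_eq_mul, mul_one, Nat.cast_sub hn]
  push_cast
  field_simp

/-- Couplings on pairs extended to a full array. -/
noncomputable def ext (J : Pair n → ℝ) : Fin n × Fin n → ℝ :=
  fun e => if h : e.1 < e.2 then J ⟨e, h⟩ else 0

lemma ext_pair (J : Pair n → ℝ) (e : Pair n) : ext J (e.1.1, e.1.2) = J e := by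
  unfold ext
  have : (e.1.1, e.1.2).1 < (e.1.1, e.1.2).2 := e.2
  rw [dif_pos this]

lemma skEq_ext (J : Pair n → ℝ) (s : Conf n) : skEq (ext J) s = skEnergy J s := by
  unfold skEq skEnergy
  congr 1
  have h := sum_pair (n := n) (fun a b => ext J (a, b) * spin (s a) * spin (s b))
  rw [← h]
  apply Finset.sum_congr rfl
  intro e _
  rw [ext_pair]
  ring

lemma tt_eq (J : Pair n → ℝ) (i : Fin n) (s : Conf n) :
    tt (uvec i) s J = afld (ext J) s i := by
  unfold tt afld fld
  have h := sum_inc (n := n)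
    (fun a b => Ksym (ext J) a b * (spin (s a) * spin (s b)))
    (fun a b => by rw [Ksym_symm]; ring) i
  have h2 : ∑ j ∈ univ.erase i, Ksym (ext J) i j * (spin (s i) * spin (s j))
      = ∑ j, Ksym (ext J) i j * (spin (s i) * spin (s j)) := by
    rw [← Finset.add_sum_erase univ _ (mem_univ i), Ksym_diag]
    simp
  rw [h2] at h
  rw [Finset.mul_sum]
  have h3 : ∑ j, spin (s i) * (Ksym (ext J) i j * spin (s j))
      = ∑ j, Ksym (ext J) i j * (spin (s i) * spin (s j)) := by
    apply Finset.sum_congr rfl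
    intro j _
    ring
  rw [h3, ← h]
  apply Finset.sum_congr rfl
  intro e _
  unfold uvec Ksym chi
  rw [if_pos e.2, ext_pair]
  ring

lemma costOp_eq (J : Pair n → ℝ) :
    costOp J = Matrix.diagonal fun s => ((skEnergy J s : ℝ) : ℂ) := by
  unfold costOp pauliZ skEnergy
  ext s t
  by_cases hst : s = t
  · subst hst
    simp only [Matrix.smul_apply, Matrix.sum_apply, Matrix.diagonal_mul_diagonal,
      Matrix.diagonal_apply_eq, smul_eq_mul]
    push_cast
    rfl
  · simp [Matrix.smul_apply, Matrix.sum_apply, Matrix.diagonal_mul_diagonal,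
      Matrix.diagonal_apply_ne _ hst]

lemma exp_cost (J : Pair n → ℝ) (g : ℝ) (v : Conf n → ℂ) :
    NormedSpace.exp ((-(Complex.I * (g : ℂ))) • costOp J) *ᵥ v
      = fun s => Complex.exp (-(Complex.I * g * ((skEnergy J s : ℝ) : ℂ))) * v s := by
  rw [costOp_eq, ← Matrix.diagonal_smul, Matrix.exp_diagonal]
  funext s
  rw [Matrix.mulVec_diagonal]
  congr 1
  rw [Pi.coe_exp, ← Complex.exp_eq_exp_ℂ]
  congr 1
  simp only [Pi.smul_apply, smul_eq_mul]
  ring

lemma pauliX_herm (i : Fin n) : (pauliX i : Matrix (Conf n) (Conf n) ℂ).IsHermitian := by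
  ext s t
  simp only [Matrix.conjTranspose_apply, pauliX, Matrix.of_apply]
  have h : (t = Function.update s i (!(s i))) ↔ (s = Function.update t i (!(t i))) := by
    constructor
    · intro h
      subst h
      simp
    · intro h
      subst h
      simp
  by_cases h1 : s = Function.update t i (!(t i))
  · rw [if_pos h1, if_pos (h.mpr h1)]; simp
  · rw [if_neg h1, if_neg (fun h2 => h1 (h.mp h2))]; simp

lemma mixer_herm (n : ℕ) : (mixer n).IsHermitian := by
  unfold mixer Matrix.IsHermitian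
  rw [Matrix.conjTranspose_sum]
  apply Finset.sum_congr rfl
  intro i _
  exact pauliX_herm i

/-- The mixing unitary. -/
noncomputable def mixU (n : ℕ) (b : ℝ) : Matrix (Conf n) (Conf n) ℂ :=
  NormedSpace.exp ((-(Complex.I * (b : ℂ))) • mixer n)

lemma mixU_unitary (b : ℝ) : (mixU n b)ᴴ * mixU n b = 1 := by
  unfold mixU
  rw [← Matrix.exp_conjTranspose, Matrix.conjTranspose_smul, (mixer_herm n).eq]
  have h1 : star (-(Complex.I * (b : ℂ))) = Complex.I * b := by
    simp
  rw [h1, ← Matrix.exp_add_of_commute]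
  · rw [neg_smul, add_neg_cancel, NormedSpace.exp_zero]
  · exact (Commute.refl (mixer n)).smul_left _ |>.smul_right _

lemma sum_norm_sq_eq (v : Conf n → ℂ) :
    ((∑ s, ‖v s‖ ^ 2 : ℝ) : ℂ) = star v ⬝ᵥ v := by
  rw [dotProduct]
  push_cast
  apply Finset.sum_congr rfl
  intro s _
  simp only [Pi.star_apply, RCLike.star_def]
  rw [mul_comm, Complex.mul_conj, Complex.normSq_eq_norm_sq]
  push_cast
  rfl

lemma sum_norm_sq_mulVec (U : Matrix (Conf n) (Conf n) ℂ) (hU : Uᴴ * U = 1) (v : Conf n → ℂ) :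
    ∑ s, ‖(U *ᵥ v) s‖ ^ 2 = ∑ s, ‖v s‖ ^ 2 := by
  have h : ((∑ s, ‖(U *ᵥ v) s‖ ^ 2 : ℝ) : ℂ) = ((∑ s, ‖v s‖ ^ 2 : ℝ) : ℂ) := by
    rw [sum_norm_sq_eq, sum_norm_sq_eq, Matrix.star_mulVec, Matrix.dotProduct_mulVec,
      Matrix.vecMul_vecMul, hU, Matrix.vecMul_one]
  exact_mod_cast h

/-- Matrix action on the Hilbert space. -/
noncomputable def matL (U : Matrix (Conf n) (Conf n) ℂ) : Hil n →ₗ[ℂ] Hil n where
  toFun v := WithLp.toLp 2 (U *ᵥ (WithLp.ofLp v))
  map_add' u v := by
    simp [Matrix.mulVec_add]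
  map_smul' c v := by
    simp [Matrix.mulVec_smul]

lemma norm_matL (U : Matrix (Conf n) (Conf n) ℂ) (hU : Uᴴ * U = 1) (v : Hil n) :
    ‖matL U v‖ = ‖v‖ := by
  rw [EuclideanSpace.norm_eq, EuclideanSpace.norm_eq]
  congr 1
  exact sum_norm_sq_mulVec U hU (WithLp.ofLp v)

/-- Initial state in the Hilbert space. -/
noncomputable def plusH (n : ℕ) : Hil n := WithLp.toLp 2 (plusState n)

lemma norm_plusH (n : ℕ) : ‖plusH n‖ = 1 := by
  rw [EuclideanSpace.norm_eq]
  have h : ∑ s : Conf n, ‖plusH n s‖ ^ 2 = 1 := by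
    have h1 : ∀ s : Conf n, ‖plusH n s‖ ^ 2 = (1 / 2 : ℝ) ^ n := by
      intro s
      have : plusH n s = (((Real.sqrt 2)⁻¹ ^ n : ℝ) : ℂ) := rfl
      rw [this, Complex.norm_real, Real.norm_eq_abs, sq_abs, ← pow_mul, mul_comm n 2, pow_mul,
        inv_pow, Real.sq_sqrt (by norm_num)]
      norm_num
    simp only [h1, Finset.sum_const, Finset.card_univ, nsmul_eq_mul]
    rw [Fintype.card_fun, Fintype.card_bool, Fintype.card_fin]
    push_cast
    rw [← mul_pow]
    norm_num
  rw [h, Real.sqrt_one]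

/-- Real energies as complex ones. -/
noncomputable def cE (J : Pair n → ℝ) : Conf n → ℂ := fun s => ((skEnergy J s : ℝ) : ℂ)

lemma norm_circ_real (D : ℕ → Hil n →ₗ[ℂ] Hil n) (hD : ∀ k v, ‖D k v‖ = ‖v‖) (γ : ℕ → ℝ)
    (J : Pair n → ℝ) (v : Hil n) (k : ℕ) : ‖circ D γ (cE J) v k‖ = ‖v‖ := by
  induction k with
  | zero => rfl
  | succ k ih =>
    rw [circ, hD, phaseL, norm_diagL_eq, ih]
    intro s
    unfold cE
    rw [show -(Complex.I * (γ k : ℂ) * ((skEnergy J s : ℝ) : ℂ))
      = -(Complex.I * ((γ k * skEnergy J s : ℝ) : ℂ)) by push_cast; ring]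
    exact norm_exp_I_real _

lemma continuous_skEnergy (s : Conf n) : Continuous fun J : Pair n → ℝ => skEnergy J s := by
  unfold skEnergy
  fun_prop

lemma continuous_circ (D : ℕ → Hil n →ₗ[ℂ] Hil n) (γ : ℕ → ℝ) (v : Hil n) (k : ℕ) :
    Continuous fun J : Pair n → ℝ => circ D γ (cE J) v k := by
  induction k with
  | zero => exact continuous_const
  | succ k ih =>
    simp only [circ]
    have h1 : Continuous fun J : Pair n → ℝ => phaseL (γ k) (cE J) (circ D γ (cE J) v k) := by
      have h2 : ∀ s, Continuous fun J : Pair n → ℝ =>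
          Complex.exp (-(Complex.I * (γ k : ℂ) * cE J s)) * (circ D γ (cE J) v k) s := by
        intro s
        have h3 := continuous_skEnergy (n := n) s
        have h4 : Continuous fun J : Pair n → ℝ => (circ D γ (cE J) v k) s :=
          (PiLp.continuous_apply 2 _ s).comp ih
        unfold cE at *
        fun_prop
      have h5 : Continuous fun J : Pair n → ℝ =>
          (fun s => Complex.exp (-(Complex.I * (γ k : ℂ) * cE J s)) * (circ D γ (cE J) v k) s) :=
        continuous_pi h2
      exact (PiLp.continuous_toLp 2 _).comp h5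
    exact (LinearMap.continuous_of_finiteDimensional (D k)).comp h1

/-- The QAOA state is a circuit. -/
lemma circ_eq_qaoa (J : Pair n → ℝ) (p : ℕ) : ∀ (γ β : Fin p → ℝ) (γ' β' : ℕ → ℝ),
    (∀ k : Fin p, γ' k = γ k) → (∀ k : Fin p, β' k = β k) →
    circ (fun k => matL (mixU n (β' k))) γ' (cE J) (plusH n) p
      = WithLp.toLp 2 (qaoaState J p γ β) := by
  induction p with
  | zero =>
    intro γ β γ' β' _ _
    rfl
  | succ p ih =>
    intro γ β γ' β' hγ hβ
    rw [circ, ih (fun k => γ k.castSucc) (fun k => β k.castSucc) γ' β'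
      (fun k => by have := hγ k.castSucc; simpa using this)
      (fun k => by have := hβ k.castSucc; simpa using this)]
    rw [qaoaState, exp_cost]
    have h1 : γ' p = γ (Fin.last p) := by have := hγ (Fin.last p); simpa using this
    have h2 : β' p = β (Fin.last p) := by have := hβ (Fin.last p); simpa using this
    rw [← h1, ← h2]
    rfl

end Vale.Agent.P367.Gap
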